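import Vale.Agent.P301Z.Ab.All
import Vale.Agent.P301.H450.HI

/-!
# P301: Calabi-Yau metrics on a fixed manifold depend smoothly on the Kähler class
-/

open scoped Manifold ContDiff ComplexOrder Topology Matrix
open Set Filter Asymptotics
open Vale.Agent.P272.K Vale.Agent.P272.K.LIN Vale.Agent.P272.K.N
open Vale.Agent.P301.H599 Vale.Agent.P301.H450 Vale.Agent.P290.H158 Vale.Agent.P267.H661
open Vale.Agent.P301Z.Ab

set_option maxSynthPendingDepth 3
set_option linter.unusedSectionVars false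

noncomputable section

namespace Vale.Agent.P301Z.Cs

variable {d m : ℕ} {X : Type} [TopologicalSpace X] [ChartedSpace (Cm d) X]

/-- matrix fields in the charts -/
abbrev MF (d : ℕ) (X : Type) [TopologicalSpace X] : Type :=
  Chart d X → Cm d → Matrix (Fin d) (Fin d) ℂ

/-- the form `w + Σ a_i θ_i + i∂∂̄u` -/
def pert (w : MF d X) (θ : Fin m → MF d X) (a : Fin m → ℝ) (u : X → ℝ) : MF d X :=
  fun e z => w e z + ∑ i, (a i : ℂ) • θ i e z + ddc u e z

/-- the functional `B ↦ Re tr (A lev B)` -/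
def trL (A : Matrix (Fin d) (Fin d) ℂ) : Bil d →L[ℝ] ℝ := ∑ j, ∑ k, coefL j k (A j k)

theorem trL_apply (A : Matrix (Fin d) (Fin d) ℂ) (B : Bil d) :
    trL A B = (A * lev B).trace.re := by
  simp only [trL, _root_.sum_apply, coefL_apply, Matrix.trace, Matrix.diag_apply,
    Matrix.mul_apply, Complex.re_sum]

variable [IsManifold 𝓘(ℂ, Cm d) ω X] {w : MF d X} {θ : Fin m → MF d X}

theorem isReal11_sum (hθ : ∀ i, IsReal11 (θ i)) (a : Fin m → ℝ) (s : Finset (Fin m)) :
    IsReal11 fun (e : Chart d X) z => ∑ i ∈ s, (a i : ℂ) • θ i e z := by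
  classical
  induction s using Finset.induction_on with
  | empty =>
    have h := (isReal11_ddc (d := d) (X := X) (u := fun _ => 0)
      (fun _ _ _ => contDiffAt_const)).smul 0
    simpa using h
  | insert i s hi ih =>
    simp only [Finset.sum_insert hi]
    exact ((hθ i).smul (a i)).add ih

theorem isReal11_pert (hw : IsKahler w) (hθ : ∀ i, IsReal11 (θ i)) (a : Fin m → ℝ) {u : X → ℝ}
    (hu : SmoothFn (n := d) u) : IsReal11 (pert w θ a u) :=
  ((isReal11_kahler hw).add (isReal11_sum hθ a Finset.univ)).add (isReal11_ddc hu)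

/-- the Laplacian of `w` -/
def lapS (hw : IsHermitian w) : SOp (Cm d) X where
  a e y := trL (w e y)⁻¹
  smooth e he y hy := by
    refine ContDiffAt.sum fun j _ => ContDiffAt.sum fun k _ => ?_
    exact (coefL j k).contDiff.contDiffAt.comp y
      (contDiffAt_inv (fun a b => hw.smooth_target he hy a b) (hw.det_ne_zero_target he hy) j k)
  pos e he y hy ξ hξ := by
    rw [trL_apply]
    exact trace_inv_lev_pos (hw.posDef_target he hy) hξ
  P u x := ((w (chartAt (Cm d) x) (chartAt (Cm d) x x))⁻¹ *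
    ddc u (chartAt (Cm d) x) (chartAt (Cm d) x x)).trace.re
  eq u hu e he x hx := by
    have hu' : C2Fn (n := d) u := c2Fn_iff.2 hu
    have h1 : At e x := ⟨he, hx⟩
    rw [trL_apply, ← cHess_eq_lev (diffble2 (hu' e x h1))]
    exact congrArg Complex.re (trace_inv hw.isForm (isForm_cHess hu') (AMP.at_chartAt x) h1)

/-- the Laplacian as an operator without lower order terms -/
def lapL (hw : IsHermitian w) : LOp (Cm d) X where
  A := lapS hw
  b _ _ := 0
  bsmooth _ _ _ _ := contDiffAt_const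
  c _ := 0
  csmooth _ _ _ _ := contDiffAt_const
  Q := (lapS hw).P
  eq u _ e _ x _ := by simp

/-- the nonlinear part of the Monge-Ampère operator -/
def qE (w : MF d X) (θ : Fin m → MF d X) : Expr (Cm d) X (Fin m → ℝ) (ℝ × ℝ) := fun e r =>
  (((w e r.2.1)⁻¹ * (w e r.2.1 + ∑ i, (r.1 i : ℂ) • θ i e r.2.1 + lev r.2.2.1.2)).det.re - 1 -
    trL (w e r.2.1)⁻¹ r.2.2.1.2, 0)

theorem smooth_tgt {b : MF d X} (hb : INT.IsClosedForm b) {e : Chart d X}
    (he : e ∈ atlas (Cm d) X) {y : Cm d} (hy : y ∈ e.target) (i j : Fin d) :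
    ContDiffAt ℝ ∞ (fun z => b e z i j) y := by
  have h := hb.smooth e (e.symm y) (At.of_target he hy) i j
  rwa [e.right_inv hy] at h

theorem cda_det {E : Type} [NormedAddCommGroup E] [NormedSpace ℝ E]
    {M : E → Matrix (Fin d) (Fin d) ℂ} {p : E} (hM : ∀ i j, ContDiffAt ℝ ∞ (fun v => M v i j) p) :
    ContDiffAt ℝ ∞ (fun v => (M v).det) p := by
  simp only [Matrix.det_apply]
  refine ContDiffAt.sum fun σ _ => ?_
  refine ContDiffAt.const_smul _ ?_
  exact contDiffAt_prod fun i _ => hM _ _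

theorem qE_sm (hw : IsHermitian w) (hθ : ∀ i, IsReal11 (θ i)) : (qE w θ).Sm := by
  intro e he r hr
  have p1 : ContDiffAt ℝ ∞ (fun r : (Fin m → ℝ) × Cm d × J2 (Cm d) × J2 (Cm d) => r.2.1) r :=
    (contDiff_fst.comp contDiff_snd).contDiffAt
  have p2 : ContDiffAt ℝ ∞ (fun r : (Fin m → ℝ) × Cm d × J2 (Cm d) × J2 (Cm d) => r.2.2.1.2) r :=
    (contDiff_snd.comp (contDiff_fst.comp (contDiff_snd.comp contDiff_snd))).contDiffAt
  have hi : ∀ j k, ContDiffAt ℝ ∞
      (fun r : (Fin m → ℝ) × Cm d × J2 (Cm d) × J2 (Cm d) => (w e r.2.1)⁻¹ j k) r := fun j k =>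
    ContDiffAt.comp r (g := fun y => (w e y)⁻¹ j k) (contDiffAt_inv
      (fun a b => hw.smooth_target he hr a b) (hw.det_ne_zero_target he hr) j k) p1
  have hl : ∀ j k, ContDiffAt ℝ ∞
      (fun r : (Fin m → ℝ) × Cm d × J2 (Cm d) × J2 (Cm d) => lev r.2.2.1.2 j k) r := fun j k =>
    ContDiffAt.comp r (g := fun B : Bil d => lev B j k) (contDiff_lev j k).contDiffAt p2
  refine ContDiffAt.prodMk ?_ contDiffAt_const
  refine ContDiffAt.sub (ContDiffAt.sub ?_ contDiffAt_const) ?_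
  · refine Complex.reCLM.contDiff.contDiffAt.comp r (cda_det fun j k => ?_)
    simp only [Matrix.mul_apply, Matrix.add_apply, Matrix.sum_apply, Matrix.smul_apply,
      smul_eq_mul]
    refine ContDiffAt.sum fun l _ => (hi j l).mul (ContDiffAt.add (ContDiffAt.add ?_ ?_) (hl l k))
    · exact ContDiffAt.comp r (g := fun y => w e y l k) (hw.smooth_target he hr l k) p1
    · refine ContDiffAt.sum fun i _ => ContDiffAt.mul ?_ ?_
      · exact Complex.ofRealCLM.contDiff.contDiffAt.comp r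
          ((contDiff_apply ℝ ℝ i).comp contDiff_fst).contDiffAt
      · exact ContDiffAt.comp r (g := fun y => θ i e y l k)
          (smooth_tgt (hθ i).toIsClosedForm he hr l k) p1
  · simp only [trL_apply, Matrix.trace, Matrix.diag_apply, Matrix.mul_apply]
    exact Complex.reCLM.contDiff.contDiffAt.comp r
      (ContDiffAt.sum fun j _ => ContDiffAt.sum fun l _ => (hi j l).mul (hl l j))

theorem qE_val {u v : X → ℝ} (hu : C2Fn (n := d) u) (a : Fin m → ℝ) {e : Chart d X} {x : X}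
    (h : At e x) : (qE w θ).val e a u v x =
      (((w e (e x))⁻¹ * pert w θ a u e (e x)).det.re - 1 -
        ((w e (e x))⁻¹ * ddc u e (e x)).trace.re, 0) := by
  have h1 : lev (fderiv ℝ (fderiv ℝ fun y => u (e.symm y)) (e x)) = ddc u e (e x) :=
    (cHess_eq_lev (diffble2 (hu e x h))).symm
  show (((w e (e x))⁻¹ * (w e (e x) + ∑ i, (a i : ℂ) • θ i e (e x) +
    lev (fderiv ℝ (fderiv ℝ fun y => u (e.symm y)) (e x)))).det.re - 1 -
    trL (w e (e x))⁻¹ (fderiv ℝ (fderiv ℝ fun y => u (e.symm y)) (e x)), (0 : ℝ)) = _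
  rw [trL_apply, h1]
  rfl

theorem det_inv_form {b c : MF d X} (hb : IsForm b) (hc : IsForm c) {e e' : Chart d X} {x : X}
    (h : At e x) (h' : At e' x) :
    ((b e (e x))⁻¹ * c e (e x)).det = ((b e' (e' x))⁻¹ * c e' (e' x)).det := by
  have hJ := jacM_isUnit h h'
  rw [hb e e' x h h', hc e e' x h h', inv_mul_form hJ, Matrix.det_mul, Matrix.det_mul,
    mul_comm, ← mul_assoc, ← Matrix.det_mul, Matrix.mul_nonsing_inv _ (isUnit_conj hJ),
    Matrix.det_one, one_mul]

theorem qE_compat (hw : IsKahler w) (hθ : ∀ i, IsReal11 (θ i)) : (qE w θ).Compat := by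
  intro a u v hu _ e he e' he' x hx hx'
  have hs : SmoothFn (n := d) u := smoothFn_iff.2 hu
  have h1 : At e x := ⟨he, hx⟩
  have h2 : At e' x := ⟨he', hx'⟩
  rw [qE_val hs.c2Fn a h1, qE_val hs.c2Fn a h2,
    det_inv_form hw.isForm (isReal11_pert hw hθ a hs).form h1 h2,
    trace_inv hw.isForm (isReal11_ddc hs).form h1 h2]

theorem det_littleO (A : Matrix (Fin d) (Fin d) ℂ) :
    (fun B : Bil d => (1 + A * lev B).det.re - 1 - trL A B) =o[𝓝 0] fun B => B := by
  have hc : ContDiff ℝ ∞ fun B : Bil d => (1 + A * lev B).det.re := by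
    refine Complex.reCLM.contDiff.comp (contDiff_det fun j k => ?_)
    simp only [Matrix.add_apply, Matrix.mul_apply]
    exact contDiff_const.add (ContDiff.sum fun l _ => contDiff_const.mul (contDiff_lev l k))
  have hd := (hc.differentiable (by simp) 0).hasFDerivAt
  have he : fderiv ℝ (fun B : Bil d => (1 + A * lev B).det.re) 0 = trL A := by
    ext1 B
    have hl : HasDerivAt (fun t : ℝ => (0 : Bil d) + t • B) B 0 := by
      simpa using ((hasDerivAt_id (0 : ℝ)).smul_const B).const_add (0 : Bil d)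
    have h2 : HasFDerivAt (fun B : Bil d => (1 + A * lev B).det.re)
        (fderiv ℝ (fun B : Bil d => (1 + A * lev B).det.re) 0) ((0 : Bil d) + (0 : ℝ) • B) := by
      simpa using hd
    have h3 := h2.comp_hasDerivAt (0 : ℝ) hl
    have h4 := Complex.reCLM.hasFDerivAt.comp_hasDerivAt (0 : ℝ)
      (hasDerivAt_det_line 1 (A * lev B) (by simp))
    rw [trL_apply]
    refine h3.unique ?_
    have h5 : Complex.reCLM ((1 : Matrix (Fin d) (Fin d) ℂ).det * (1⁻¹ * (A * lev B)).trace) =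
        (A * lev B).trace.re := by simp
    rw [h5] at h4
    refine h4.congr_of_eventuallyEq (Eventually.of_forall fun t => ?_)
    simp [lev_smul]
  rw [he] at hd
  have h6 := hd.isLittleO
  have h0 : lev (0 : Bil d) = 0 := by simpa using lev_smul (n := d) 0 0
  simpa [h0] using h6

theorem qE_small (hw : IsHermitian w) {e : Chart d X} (he : e ∈ atlas (Cm d) X) {y : Cm d}
    (hy : y ∈ e.target) :
    (fun j : J2 (Cm d) × J2 (Cm d) => qE w θ e (0, y, j)) =o[𝓝 0] fun j => j := by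
  have hu : IsUnit (w e y).det := isUnit_iff_ne_zero.2 (hw.det_ne_zero_target he hy)
  have h1 : (fun j : J2 (Cm d) × J2 (Cm d) => qE w θ e (0, y, j)) = fun j =>
      ((1 + (w e y)⁻¹ * lev j.1.2).det.re - 1 - trL (w e y)⁻¹ j.1.2, (0 : ℝ)) := by
    funext j
    simp [qE, Matrix.mul_add, Matrix.nonsing_inv_mul _ hu]
  rw [h1]
  refine IsLittleO.prod_left ?_ (isLittleO_zero _ _)
  have ht : Tendsto (fun j : J2 (Cm d) × J2 (Cm d) => j.1.2) (𝓝 0) (𝓝 0) :=
    (continuous_snd.comp continuous_fst).tendsto' 0 0 rfl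
  refine ((det_littleO (w e y)⁻¹).comp_tendsto ht).trans_isBigO ?_
  refine IsBigO.of_bound 1 (Eventually.of_forall fun j => ?_)
  rw [one_mul]
  exact (norm_snd_le j.1).trans (norm_fst_le j)

theorem jsm_smooth {u : (Fin m → ℝ) → X → ℝ} {N : Set (Fin m → ℝ)} (hu : JSm (Cm d) u N)
    {a : Fin m → ℝ} (ha : a ∈ N) : SmoothFn (n := d) (u a) := fun e x h =>
  ContDiffAt.comp (e x) (g := fun r : (Fin m → ℝ) × Cm d => u r.1 (e.symm r.2))
    (f := fun z => (a, z)) (hu a ha e h.1 (e x) h.mem_target)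
    (contDiffAt_const.prodMk contDiffAt_id)

/-- the entries of the perturbed form are smooth in all variables -/
theorem pert_joint (hw : IsKahler w) (hθ : ∀ i, IsReal11 (θ i)) {u : (Fin m → ℝ) → X → ℝ}
    {N : Set (Fin m → ℝ)} (hN : IsOpen N) (hu : JSm (Cm d) u N) {a : Fin m → ℝ} (ha : a ∈ N)
    {e : Chart d X} (he : e ∈ atlas (Cm d) X) {y : Cm d} (hy : y ∈ e.target) (j k : Fin d) :
    ContDiffAt ℝ ∞ (fun r : (Fin m → ℝ) × Cm d => pert w θ r.1 (u r.1) e r.2 j k) (a, y) := by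
  set U : (Fin m → ℝ) × Cm d → ℝ := fun r => u r.1 (e.symm r.2) with hU
  have h0 : ∀ᶠ r : (Fin m → ℝ) × Cm d in 𝓝 (a, y), r.1 ∈ N ∧ r.2 ∈ e.target :=
    (continuousAt_fst.eventually (hN.mem_nhds ha)).and
      (continuousAt_snd.eventually (e.open_target.mem_nhds hy))
  have h1 : ContDiffAt ℝ ∞ U (a, y) := hu a ha e he y hy
  have h2 : ContDiffAt ℝ ∞
      (fun r : (Fin m → ℝ) × Cm d => fderiv ℝ (fun z => U (r.1, z)) r.2) (a, y) :=
    ContDiffAt.fderiv (f := fun (r : (Fin m → ℝ) × Cm d) z => U (r.1, z)) (g := fun r => r.2)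
      (m := ∞) (n := ∞)
      (ContDiffAt.comp (((a, y), y) : ((Fin m → ℝ) × Cm d) × Cm d) (g := U)
        (f := fun q : ((Fin m → ℝ) × Cm d) × Cm d => (q.1.1, q.2)) h1 (by fun_prop))
      contDiffAt_snd (by simp)
  have h3 : ContDiffAt ℝ ∞ (fun r : (Fin m → ℝ) × Cm d =>
      fderiv ℝ (fun z' => fderiv ℝ (fun z => U (r.1, z)) z') r.2) (a, y) :=
    ContDiffAt.fderiv (f := fun (r : (Fin m → ℝ) × Cm d) z' => fderiv ℝ (fun z => U (r.1, z)) z')
      (g := fun r => r.2) (m := ∞) (n := ∞)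
      (ContDiffAt.comp (((a, y), y) : ((Fin m → ℝ) × Cm d) × Cm d)
        (g := fun r : (Fin m → ℝ) × Cm d => fderiv ℝ (fun z => U (r.1, z)) r.2)
        (f := fun q : ((Fin m → ℝ) × Cm d) × Cm d => (q.1.1, q.2)) h2 (by fun_prop))
      contDiffAt_snd (by simp)
  have h4 : ContDiffAt ℝ ∞ (fun r : (Fin m → ℝ) × Cm d => ddc (u r.1) e r.2 j k) (a, y) := by
    refine (ContDiffAt.comp (a, y) (g := fun B : Bil d => lev B j k)
      (contDiff_lev j k).contDiffAt h3).congr_of_eventuallyEq ?_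
    filter_upwards [h0] with r hr
    have h5 := (jsm_smooth hu hr.1).c2Fn e (e.symm r.2) (At.of_target he hr.2)
    rw [e.right_inv hr.2] at h5
    exact congrFun (congrFun (cHess_eq_lev (diffble2 h5)) j) k
  simp only [pert, Matrix.add_apply, Matrix.sum_apply, Matrix.smul_apply, smul_eq_mul]
  refine ContDiffAt.add (ContDiffAt.add ?_ ?_) h4
  · exact ContDiffAt.comp (a, y) (g := fun z => w e z j k)
      (hw.toIsHermitian.smooth_target he hy j k) contDiffAt_snd
  · refine ContDiffAt.sum fun i _ => ContDiffAt.mul ?_ ?_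
    · exact Complex.ofRealCLM.contDiff.contDiffAt.comp (a, y)
        ((contDiff_apply ℝ ℝ i).comp contDiff_fst).contDiffAt
    · exact ContDiffAt.comp (a, y) (g := fun z => θ i e z j k)
        (smooth_tgt (hθ i).toIsClosedForm he hy j k) contDiffAt_snd

theorem pert_zero {u : X → ℝ} (hu : ∀ x, u x = 0) (e : Chart d X) (z : Cm d) :
    pert w θ 0 u e z = w e z := by
  have h : (fun y => u (e.symm y)) = fun _ => (0 : ℝ) := funext fun y => hu _
  simp [pert, ddc, h, N.cHess_const]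

variable [T2Space X] [CompactSpace X] [ConnectedSpace X]

/-- **Calabi-Yau metrics near `w`**, smooth in the class and the point -/
theorem cyf [NeZero d] (hw : IsKahler w) (hθ : ∀ i, IsReal11 (θ i)) :
    ∃ (N : Set (Fin m → ℝ)) (u : (Fin m → ℝ) → X → ℝ), IsOpen N ∧ 0 ∈ N ∧ (∀ x, u 0 x = 0) ∧
      JSm (Cm d) u N ∧ ∀ a ∈ N, IsKahler (pert w θ a (u a)) ∧ ∃ c : ℝ, ∀ e x, At e x →
        (pert w θ a (u a) e (e x)).det.re = c * (w e (e x)).det.re := by
  obtain ⟨N, u, v, c, hN, h0, hu0, hu, -, heq⟩ := ab_main (Cm d) X (Fin m → ℝ)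
    (lapL hw.toIsHermitian) (qE w θ) (fun _ => rfl) (qE_sm hw.toIsHermitian hθ)
    (qE_compat hw hθ) (fun e he y hy => qE_small hw.toIsHermitian he hy)
  have hpos : ∀ᶠ a in 𝓝 (0 : Fin m → ℝ), ∀ x ∈ (univ : Set X), a ∈ N ∧
      ∃ e, At e x ∧ (pert w θ a (u a) e (e x)).PosDef := by
    refine isCompact_univ.eventually_forall_of_forall_eventually fun x _ => ?_
    have hx := AMP.at_chartAt (n := d) x
    set e := chartAt (Cm d) x with he
    obtain ⟨ε, hε, hP⟩ := posDef_of_near (hw.posDef e x hx)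
    have hc : ContinuousAt (fun r : (Fin m → ℝ) × X => (r.1, e r.2)) (0, x) :=
      continuousAt_fst.prodMk (ContinuousAt.comp (f := fun r : (Fin m → ℝ) × X => r.2)
        (e.continuousAt hx.2) continuousAt_snd)
    have h1 : ∀ j k, ∀ᶠ r : (Fin m → ℝ) × X in 𝓝 (0, x),
        ‖pert w θ r.1 (u r.1) e (e r.2) j k - w e (e x) j k‖ ≤ ε := by
      intro j k
      have h2 := (pert_joint hw hθ hN hu h0 hx.1 hx.mem_target j k).continuousAt
      have h3 := ContinuousAt.comp (f := fun r : (Fin m → ℝ) × X => (r.1, e r.2)) (x := (0, x))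
        h2 hc
      have h4 := Metric.continuousAt_iff'.1 h3 ε hε
      filter_upwards [h4] with r hr
      rw [dist_eq_norm] at hr
      have h5 : pert w θ 0 (u 0) e (e x) j k = w e (e x) j k := by
        rw [pert_zero fun x => (hu0 x).1]
      simp only [Function.comp] at hr
      rw [h5] at hr
      exact hr.le
    have h6 : ∀ᶠ r : (Fin m → ℝ) × X in 𝓝 (0, x), r.1 ∈ N ∧ r.2 ∈ e.source :=
      (continuousAt_fst.eventually (hN.mem_nhds h0)).and
        (continuousAt_snd.eventually (e.open_source.mem_nhds hx.2))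
    filter_upwards [h6, eventually_all.2 fun j => eventually_all.2 fun k => h1 j k] with r hr h7
    have h8 : At e r.2 := ⟨hx.1, hr.2⟩
    exact ⟨hr.1, e, h8, hP _ ((isReal11_pert hw hθ r.1 (jsm_smooth hu hr.1)).herm e r.2 h8) h7⟩
  obtain ⟨N', hN'1, hN'2, hN'3⟩ := eventually_nhds_iff.1 hpos
  obtain ⟨x0⟩ : Nonempty X := inferInstance
  have hsub : ∀ a ∈ N', a ∈ N := fun a ha => (hN'1 a ha x0 (mem_univ _)).1
  refine ⟨N', u, hN'2, hN'3, fun x => (hu0 x).1, fun a ha => hu a (hsub a ha), fun a ha => ?_⟩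
  have hs := jsm_smooth hu (hsub a ha)
  have hr := isReal11_pert hw hθ a hs
  refine ⟨isKahler_of hr fun e x hx => ?_, (c a).1 + 1, fun e x hx => ?_⟩
  · obtain ⟨-, e', h1, h2⟩ := hN'1 a ha x (mem_univ _)
    rw [hr.form e e' x hx h1]
    have h3 := h2.conjTranspose_mul_mul_same (B := (jacM e e' x).map (starRingEnd ℂ))
      (Matrix.mulVec_injective_of_isUnit
        ((Matrix.isUnit_iff_isUnit_det _).2 (isUnit_conj (jacM_isUnit hx h1))))
    have h4 : ((jacM e e' x).map (starRingEnd ℂ))ᴴ = (jacM e e' x)ᵀ := by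
      ext i j; simp
    rwa [h4] at h3
  · have h1 := congrArg Prod.fst (heq a (hsub a ha) e hx.1 x hx.2)
    rw [qE_val hs.c2Fn a hx] at h1
    have h2 : (lapL hw.toIsHermitian).Q (u a) x =
        ((w e (e x))⁻¹ * ddc (u a) e (e x)).trace.re :=
      congrArg Complex.re (trace_inv hw.isForm (isReal11_ddc hs).form (AMP.at_chartAt x) hx)
    simp only [Prod.fst_add, h2] at h1
    have hp := hw.posDef e x hx
    have h3 : ((w e (e x))⁻¹ * pert w θ a (u a) e (e x)).det.re = (c a).1 + 1 := by linarith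
    have h4 : (pert w θ a (u a) e (e x)).det =
        (w e (e x)).det * ((w e (e x))⁻¹ * pert w θ a (u a) e (e x)).det := by
      rw [← Matrix.det_mul, ← Matrix.mul_assoc,
        Matrix.mul_nonsing_inv _ (isUnit_iff_ne_zero.2 hp.det_pos.ne'), Matrix.one_mul]
    rw [h4, det_eq_re hp, Complex.re_ofReal_mul, h3, Complex.ofReal_re, mul_comm]

end Vale.Agent.P301Z.Cs
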