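import Vale.Agent.P301Z.Cs.Cyc0

/-!
# P301: complexified Calabi-Yau metrics
-/

open scoped Manifold ContDiff ComplexOrder Topology Matrix ComplexConjugate
open Set Filter Complex Metric
open Vale.Agent.P272.K Vale.Agent.P272.K.N
open Vale.Agent.P301.H599 Vale.Agent.P301.H450
open Vale.Agent.P301Z.Ab
open Vale.Agent.P301Z.Df (cpert)

set_option linter.unusedSectionVars false

noncomputable section

namespace Vale.Agent.P301Z.Cs

variable {d m : ℕ} {X : Type} [TopologicalSpace X] [ChartedSpace (Cm d) X]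

theorem posDef_adj {A : Matrix (Fin d) (Fin d) ℂ} (hA : A.PosDef) : A.adjugate.PosDef := by
  have h1 : A.adjugate = A.det • A⁻¹ := by
    rw [Matrix.inv_def, smul_smul, Ring.mul_inverse_cancel _ (isUnit_iff_ne_zero.2 hA.det_pos.ne'),
      one_smul]
  rw [h1]
  exact hA.inv.smul hA.det_pos

theorem posDef_of_posRe {A : Matrix (Fin d) (Fin d) ℂ} (hA : A.IsHermitian) (h : PosRe A) :
    A.PosDef :=
  Matrix.PosDef.of_dotProduct_mulVec_pos hA fun x hx =>
    Complex.pos_iff.2 ⟨h x hx, by simpa using (hA.im_star_dotProduct_mulVec_self x).symm⟩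

theorem ev_posRe [CompactSpace X] {P : Type} [TopologicalSpace P] {p : P} {M : P → MF d X}
    (hM : ∀ e x, At e x → ContinuousAt (fun r : P × Cm d => M r.1 e r.2) (p, e x))
    (h0 : ∀ e x, At e x → (M p e (e x)).PosDef) :
    ∀ᶠ a in 𝓝 p, ∀ x, ∃ e, At e x ∧ PosRe (M a e (e x)) := by
  have key : ∀ᶠ a in 𝓝 p, ∀ x ∈ (univ : Set X), ∃ e, At e x ∧ PosRe (M a e (e x)) := by
    refine isCompact_univ.eventually_forall_of_forall_eventually fun x _ => ?_
    have hx := AMP.at_chartAt (n := d) x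
    set e := chartAt (Cm d) x with he
    obtain ⟨ε, hε, hP⟩ := posRe_of_near (h0 e x hx)
    have hc : ContinuousAt (fun r : P × X => (r.1, e r.2)) (p, x) :=
      continuousAt_fst.prodMk (ContinuousAt.comp (f := fun r : P × X => r.2)
        (e.continuousAt hx.2) continuousAt_snd)
    have h3 := ContinuousAt.comp (f := fun r : P × X => (r.1, e r.2)) (x := (p, x)) (hM e x hx) hc
    have h1 : ∀ j k, ∀ᶠ r : P × X in 𝓝 (p, x), ‖M r.1 e (e r.2) j k - M p e (e x) j k‖ ≤ ε := by
      intro j k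
      have h4 := Metric.continuousAt_iff'.1 (continuousAt_pi.1 (continuousAt_pi.1 h3 j) k) ε hε
      filter_upwards [h4] with r hr
      rw [dist_eq_norm] at hr
      exact hr.le
    filter_upwards [continuousAt_snd.eventually (e.open_source.mem_nhds hx.2),
      eventually_all.2 fun j => eventually_all.2 fun k => h1 j k] with r hr h7
    exact ⟨e, ⟨hx.1, hr⟩, hP _ h7⟩
  filter_upwards [key] with a ha x using ha x (mem_univ x)

variable [IsManifold 𝓘(ℂ, Cm d) ω X] {w : MF d X} {θ : Fin m → MF d X} {u v : Cm m → X → ℝ}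
  {N : Set (Cm m)} {a : Cm m} {c : Cm m → ℂ}

theorem posRe_form {W : MF d X} (hW : IsForm W) {e e' : Chart d X} {x : X} (h : At e x)
    (h' : At e' x) (hp : PosRe (W e' (e' x))) : PosRe (W e (e x)) := by
  intro ξ hξ
  rw [hW e e' x h h']
  have hJ := isUnit_conj (jacM_isUnit h h')
  set J := jacM e e' x with hJ'
  have h2 : J.map (starRingEnd ℂ) *ᵥ ξ ≠ 0 := fun h0 => hξ (Matrix.mulVec_injective_of_isUnit
    ((Matrix.isUnit_iff_isUnit_det _).2 hJ) (by simpa using h0))
  have h3 := hp _ h2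
  have h4 : (J.map (starRingEnd ℂ))ᴴ = Jᵀ := by ext i j; simp
  rwa [Matrix.star_mulVec, h4, ← Matrix.dotProduct_mulVec, Matrix.mulVec_mulVec,
    Matrix.mulVec_mulVec] at h3

/-- the derivative in the parameter -/
def dP (u : Cm m → X → ℝ) (a b : Cm m) : X → ℝ := fun x => fderiv ℝ (fun p => u p x) a b

theorem dP_ev (hu : JSm (Cm d) u N) (ha : a ∈ N) (b : Cm m) {e : Chart d X} {x : X}
    (hx : At e x) : (fun z => dP u a b (e.symm z)) =ᶠ[𝓝 (e x)] fun z =>
      fderiv ℝ (fun r : Cm m × Cm d => u r.1 (e.symm r.2)) (a, z) (b, 0) := by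
  filter_upwards [hx.nhds_target] with z hz
  exact slice1 ((hu a ha e hx.1 z hz).differentiableAt (by simp)) b

theorem dP_smooth (hu : JSm (Cm d) u N) (ha : a ∈ N) (b : Cm m) :
    SmoothFn (n := d) (dP u a b) := fun e x hx =>
  (ContDiffAt.comp (e x) (g := fun q => fderiv ℝ (fun r : Cm m × Cm d => u r.1 (e.symm r.2)) q (b, 0))
    (f := fun z => (a, z)) (((hu a ha e hx.1 _ hx.mem_target).fderiv_right
      (m := ∞) (le_of_eq rfl)).clm_apply contDiffAt_const)
    (contDiffAt_const.prodMk contDiffAt_id)).congr_of_eventuallyEq (dP_ev hu ha b hx)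

theorem ddc_hasFDeriv (hu : JSm (Cm d) u N) (ha : a ∈ N) {e : Chart d X} {x : X} (hx : At e x)
    (j k : Fin d) : DifferentiableAt ℝ (fun p => ddc (u p) e (e x) j k) a ∧
      ∀ b, fderiv ℝ (fun p => ddc (u p) e (e x) j k) a b = ddc (dP u a b) e (e x) j k := by
  have h1 := hu a ha e hx.1 _ hx.mem_target
  refine ⟨(ContDiffAt.comp a (f := fun p => (p, e x)) (cHess_joint h1 j k)
    (contDiffAt_id.prodMk contDiffAt_const)).differentiableAt (by simp), fun b => ?_⟩
  rw [ddc, cHess_congr (dP_ev hu ha b hx)]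
  exact cHess_param h1 j k b

theorem cpert_fderiv (hu : JSm (Cm d) u N) (hv : JSm (Cm d) v N) (ha : a ∈ N) {e : Chart d X}
    {x : X} (hx : At e x) (j k : Fin d) :
    DifferentiableAt ℝ (fun p => cpert w θ p (u p) (v p) e (e x) j k) a ∧
      ∀ b, fderiv ℝ (fun p => cpert w θ p (u p) (v p) e (e x) j k) a b =
        (∑ i, b i • θ i e (e x) +
          (ddc (dP u a b) e (e x) + I • ddc (dP v a b) e (e x)) : Matrix _ _ ℂ) j k := by
  obtain ⟨h1, h2⟩ := ddc_hasFDeriv hu ha hx j k
  obtain ⟨h3, h4⟩ := ddc_hasFDeriv hv ha hx j k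
  have h5 : HasFDerivAt (fun p : Cm m => ∑ i, p i * θ i e (e x) j k)
      (∑ i, θ i e (e x) j k • ContinuousLinearMap.proj (R := ℝ) (φ := fun _ : Fin m => ℂ) i) a :=
    HasFDerivAt.fun_sum fun i _ => (hasFDerivAt_apply (𝕜 := ℝ) i a).mul_const _
  have h6 := (h5.const_add (w e (e x) j k)).add (h1.hasFDerivAt.add (h3.hasFDerivAt.const_mul I))
  have h7 : (fun p => cpert w θ p (u p) (v p) e (e x) j k) = (fun p : Cm m => w e (e x) j k +
      ∑ i, p i * θ i e (e x) j k) + ((fun p => ddc (u p) e (e x) j k) +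
        fun p => I * ddc (v p) e (e x) j k) := by
    funext p
    simp [cpert, Matrix.sum_apply]
  rw [h7]
  refine ⟨h6.differentiableAt, fun b => ?_⟩
  rw [h6.fderiv]
  simp [h2, h4, Matrix.sum_apply, mul_comm]

variable [T2Space X] [CompactSpace X] [ConnectedSpace X]

theorem cyc_holo (hw : IsKahler w) (hθ : ∀ i, IsReal11 (θ i)) (hN : IsOpen N)
    (hu : JSm (Cm d) u N) (hv : JSm (Cm d) v N) {x0 : X} (h0 : ∀ a, u a x0 = 0 ∧ v a x0 = 0)
    (heq : ∀ a ∈ N, ∀ e x, At e x →
      (cpert w θ a (u a) (v a) e (e x)).det = c a * (w e (e x)).det) (ha : a ∈ N)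
    (hp : ∀ x, ∃ e, At e x ∧ PosRe (cpert w θ a (u a) (v a) e (e x)).adjugate) (x : X) :
    DifferentiableAt ℂ (fun p => (u p x : ℂ) + I * v p x) a := by
  have hE := coForm_adj (closed_cpert hw hθ a (jsm_sm hu ha) (jsm_sm hv ha))
  have hp' : ∀ e x, At e x → PosRe (cpert w θ a (u a) (v a) e (e x)).adjugate := fun e x hx =>
    (hp x).elim fun e' h => posRe_change hE h.1 hx h.2
  have hdet : ∀ e x, At e x →
      DifferentiableAt ℝ (fun p => (cpert w θ p (u p) (v p) e (e x)).det) a := fun e x hx =>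
    INT.differentiableAt_det fun j k => (cpert_fderiv hu hv ha hx j k).1
  have hc : DifferentiableAt ℝ c a := by
    have hx := AMP.at_chartAt (n := d) x0
    refine ((hdet _ x0 hx).mul_const
      (w (chartAt (Cm d) x0) (chartAt (Cm d) x0 x0)).det⁻¹).congr_of_eventuallyEq ?_
    filter_upwards [hN.mem_nhds ha] with p hp
    rw [heq p hp _ x0 hx, mul_inv_cancel_right₀ (hw.posDef _ x0 hx).det_pos.ne']
  have hlin : ∀ b e x, At e x → ((∑ i, b i • θ i e (e x) +
      (ddc (dP u a b) e (e x) + I • ddc (dP v a b) e (e x))) *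
        (cpert w θ a (u a) (v a) e (e x)).adjugate).trace =
      fderiv ℝ c a b * (w e (e x)).det := by
    intro b e x hx
    have h1 : (fun p => (cpert w θ p (u p) (v p) e (e x)).det) =ᶠ[𝓝 a]
        fun p => c p * (w e (e x)).det := by
      filter_upwards [hN.mem_nhds ha] with p hp using heq p hp e x hx
    have h2 := INT.fderiv_det (fun j k => (cpert_fderiv (w := w) (θ := θ) hu hv ha hx j k).1) b
    rw [h1.fderiv_eq, (hc.hasFDerivAt.mul_const _).fderiv] at h2
    rw [← sum_det_updateRow, mul_comm]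
    refine Eq.trans (Finset.sum_congr rfl fun r _ => ?_) h2.symm
    congr 2
    funext l
    exact ((cpert_fderiv hu hv ha hx r l).2 b).symm
  have hd1 := (jsm_pt hu ha x).differentiableAt (by simp)
  have hd2 := (jsm_pt hv ha x).differentiableAt (by simp)
  have hd := (ofRealCLM.hasFDerivAt.comp a hd1.hasFDerivAt).add
    ((ofRealCLM.hasFDerivAt.comp a hd2.hasFDerivAt).const_mul I)
  refine differentiableAt_of_cr hd.differentiableAt fun b => ?_
  have s1 := dP_smooth hu ha (I • b)
  have s2 := dP_smooth hv ha (I • b)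
  have s3 := dP_smooth hu ha b
  have s4 := dP_smooth hv ha b
  have key := energy hw.toIsHermitian hE hp' (f := fun y => dP u a (I • b) y + dP v a b y)
    (g := fun y => dP v a (I • b) y - dP u a b y) (fun e x hx => (s1 e x hx).add (s4 e x hx))
    (fun e x hx => (s2 e x hx).sub (s3 e x hx))
    (c := fderiv ℝ c a (I • b) - I * fderiv ℝ c a b) (fun e x hx => by
      have e1 : ddc (fun y => dP u a (I • b) y + dP v a b y) e (e x) = _ := AMP.hess_add' s1 s4 hx
      have e2 : ddc (fun y => dP v a (I • b) y - dP u a b y) e (e x) = _ := AMP.hess_sub' s2 s3 hx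
      have e3 : ∑ i, (I • b) i • θ i e (e x) = I • ∑ i, b i • θ i e (e x) := by
        simp [Finset.smul_sum, smul_smul]
      rw [sub_mul, mul_assoc, ← hlin _ e x hx, ← hlin _ e x hx, e1, e2, e3, ← smul_eq_mul I,
        ← Matrix.trace_smul, ← Matrix.trace_sub, ← Matrix.smul_mul, ← Matrix.sub_mul]
      congr 2
      simp only [smul_add, smul_sub, smul_smul, I_mul_I, neg_smul, one_smul]
      simp only [AMP.hess, ddc]
      abel) x x0
  have z1 : ∀ b, dP u a b x0 = 0 := fun b => by simp [dP, h0]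
  have z2 : ∀ b, dP v a b x0 = 0 := fun b => by simp [dP, h0]
  simp only [z1, z2, add_zero, sub_zero] at key
  erw [hd.fderiv]
  have k1 := congrArg ofReal key.1
  have k2 := congrArg ofReal key.2
  push_cast at k1 k2
  show (dP u a (I • b) x : ℂ) + I * dP v a (I • b) x = I * ((dP u a b x : ℂ) + I * dP v a b x)
  linear_combination k1 + I * k2 - dP v a b x * I_mul_I

theorem cyc_real (hw : IsKahler w) (hθ : ∀ i, IsReal11 (θ i)) {f g : X → ℝ}
    (hf : SmoothFn (n := d) f) (hg : SmoothFn (n := d) g) {κ : ℂ} (ha : ∀ i, (a i).im = 0)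
    (heq : ∀ e x, At e x → (cpert w θ a f g e (e x)).det = κ * (w e (e x)).det)
    {α : Fin (d + 1) → ℂ} (hα : ∀ A B : Matrix (Fin d) (Fin d) ℂ, (A + B).det - A.det =
      (B * ∑ j, α j • (A + ((j : ℕ) : ℂ) • B).adjugate).trace)
    (hp : ∀ x, ∃ e, At e x ∧ PosRe (∑ j, α j • (cpert w θ a f g e (e x) +
      ((j : ℕ) : ℂ) • (-2 * I) • ddc g e (e x)).adjugate)) :
    IsReal11 (cpert w θ a f g) := by
  have hc := closed_cpert hw hθ a hf hg
  have hE := coForm_sum Finset.univ fun j _ => coForm_smul (coForm_adj (hc.add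
    (((isReal11_ddc hg).toIsClosedForm.smul (-2 * I)).smul ((j : Fin (d + 1)) : ℕ)))) (α j)
  have hH : ∀ e x, At e x → (cpert w θ a f g e (e x))ᴴ =
      cpert w θ a f g e (e x) + (-2 * I) • ddc g e (e x) := by
    intro e x hx
    have h1 : ∀ i, star (a i) = a i := fun i => Complex.conj_eq_iff_im.2 (ha i)
    simp only [cpert, Matrix.conjTranspose_add, Matrix.conjTranspose_sum, Matrix.conjTranspose_smul,
      (hw.posDef e x hx).1.eq, fun i => ((hθ i).herm e x hx).eq, h1,
      ((isReal11_ddc hf).herm e x hx).eq, ((isReal11_ddc hg).herm e x hx).eq]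
    rw [add_assoc _ (_ + _), add_assoc (ddc f e _), ← add_smul]
    congr 3
    simp only [RCLike.star_def, conj_I]
    ring
  have key := energy hw.toIsHermitian hE (fun e x hx => (hp x).elim fun e' h =>
    posRe_change hE h.1 hx h.2) (f := fun _ => 0) (fun _ _ _ => contDiffAt_const) hg
    (c := (κ - conj κ) / 2) (fun e x hx => by
      have h1 := hα (cpert w θ a f g e (e x)) ((-2 * I) • ddc g e (e x))
      have h2 : star (w e (e x)).det = (w e (e x)).det := by
        rw [← Matrix.det_conjTranspose, (hw.posDef e x hx).1.eq]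
      rw [← hH e x hx, Matrix.det_conjTranspose, heq e x hx, star_mul', h2, Matrix.smul_mul,
        Matrix.trace_smul, smul_eq_mul, RCLike.star_def] at h1
      have h3 : ddc (fun _ : X => (0 : ℝ)) e (e x) = 0 := AMP.hess_const' 0 e _
      rw [h3, zero_add, Matrix.smul_mul, Matrix.trace_smul, smul_eq_mul]
      linear_combination (1 / 2 : ℂ) * h1)
  refine ⟨hc, fun e x hx => ?_⟩
  have h4 : g = fun _ => g x := funext fun y => (key y x).2
  have h5 : ddc g e (e x) = 0 := by rw [h4]; exact AMP.hess_const' _ e _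
  rw [Matrix.IsHermitian, hH e x hx, h5, smul_zero, add_zero]

/-- **CYC** -/
theorem cyc : Df.CYC := by
  intro d m X _ _ _ _ _ _ w θ hd hw hθ
  have : NeZero d := ⟨hd.ne'⟩
  obtain ⟨x0⟩ : Nonempty X := inferInstance
  obtain ⟨N, u, v, c, hN, h0, hu0, hu, hv, hn, heq⟩ := cyc_ex hw hθ x0
  obtain ⟨α, hα1, hα⟩ := det_sub d
  have hW : ∀ e x, At e x → ContinuousAt
      (fun r : Cm m × Cm d => cpert w θ r.1 (u r.1) (v r.1) e r.2) (0, e x) := fun e x hx =>
    continuousAt_pi.2 fun j => continuousAt_pi.2 fun k =>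
      (cpert_joint hw hθ hu hv h0 hx.1 hx.mem_target j k).continuousAt
  have hV : ∀ e x, At e x → ContinuousAt
      (fun r : Cm m × Cm d => ddc (v r.1) e r.2) (0, e x) := fun e x hx =>
    continuousAt_pi.2 fun j => continuousAt_pi.2 fun k =>
      (cHess_joint (hv 0 h0 e hx.1 _ hx.mem_target) j k).continuousAt
  have z1 : u 0 = fun _ => 0 := funext fun x => (hu0 x).1
  have z2 : v 0 = fun _ => 0 := funext fun x => (hu0 x).2
  have z3 : ∀ (e : Chart d X) z, ddc (fun _ : X => (0 : ℝ)) e z = 0 := AMP.hess_const' 0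
  have hW0 : ∀ e z, cpert w θ 0 (u 0) (v 0) e z = w e z := fun e z => by
    simp [cpert, z1, z2, z3]
  have ca : Continuous fun A : Matrix (Fin d) (Fin d) ℂ => A.adjugate :=
    continuous_id.matrix_adjugate
  have p1 := ev_posRe (M := fun a => cpert w θ a (u a) (v a)) hW fun e x hx => by
    rw [hW0]; exact hw.posDef e x hx
  have p2 := ev_posRe (M := fun a e z => (cpert w θ a (u a) (v a) e z).adjugate)
    (fun e x hx => ca.continuousAt.comp (hW e x hx)) fun e x hx => by
    rw [hW0]; exact posDef_adj (hw.posDef e x hx)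
  have p3 := ev_posRe (p := 0) (M := fun a e z => ∑ j, α j • (cpert w θ a (u a) (v a) e z +
      ((j : ℕ) : ℂ) • (-2 * I) • ddc (v a) e z).adjugate)
    (fun e x hx => tendsto_finsetSum _ fun j _ => (ca.continuousAt.comp ((hW e x hx).add
      (((hV e x hx).const_smul (-2 * I)).const_smul ((j : ℕ) : ℂ)))).const_smul (α j))
    fun e x hx => by
    simp only [hW0]
    simp only [z2, z3, smul_zero, add_zero]
    rw [← Finset.sum_smul, hα1, one_smul]
    exact posDef_adj (hw.posDef e x hx)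
  obtain ⟨ε, hε, hb⟩ := Metric.eventually_nhds_iff_ball.1
    ((show ∀ᶠ a in 𝓝 (0 : Cm m), a ∈ N from hN.mem_nhds h0).and (p1.and (p2.and p3)))
  refine ⟨ε, u, v, hε, hu0, fun a ha => hu a (hb a ha).1, fun a ha => hv a (hb a ha).1,
    fun a ha => ?_⟩
  obtain ⟨h1, h2, h3, h4⟩ := hb a ha
  have s1 := jsm_sm hu h1
  have s2 := jsm_sm hv h1
  have h5 : ∀ e x, At e x → PosRe (cpert w θ a (u a) (v a) e (e x)) := fun e x hx =>
    (h2 x).elim fun e' h => posRe_form (closed_cpert hw hθ a s1 s2).form hx h.1 h.2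
  refine ⟨cyc_holo hw hθ hN hu hv hn heq h1 h3, fun e x hx ξ hξ => ?_, fun hr => ?_⟩
  · simpa using h5 e x hx (star ξ) (by simpa using hξ)
  · have h6 := cyc_real hw hθ s1 s2 hr (heq a h1) hα h4
    refine ⟨isKahler_of h6 fun e x hx => posDef_of_posRe (h6.herm e x hx) (h5 e x hx),
      (c a).re, fun e x hx => ?_⟩
    rw [heq a h1 e x hx, det_eq_re (hw.posDef e x hx), re_mul_ofReal, ofReal_re]

end Vale.Agent.P301Z.Cs
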