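import Vale.Agent.P301Z.Cs.Loc

/-!
# P301: the hyperkähler metrics of the fibres of a family have a smooth potential
-/

open scoped Manifold ContDiff ComplexOrder Topology Matrix
open Set Filter Metric Function
open Vale.Agent.P272.K Vale.Agent.P272.K.LIN Vale.Agent.P272.K.N
open Vale.Agent.P281Z (Mf Emb)
open Vale.Agent.P299.D (pullM jacF)
open Vale.Agent.P299
open Vale.Agent.P301.H599 (IsSymplectic ddc)
open Vale.Agent.P301.H450
open Vale.Agent.P301Z.Ab Vale.Agent.P301Z.Lat Vale.Agent.P301Z.Pt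

set_option maxSynthPendingDepth 3
set_option linter.unusedSectionVars false

noncomputable section

namespace Vale.Agent.P301Z.Cs

section alg

variable {d : ℕ} {A H : Mx d}

theorem cj_tr (A : Mx d) : (A.map (starRingEnd ℂ))ᴴ = Aᵀ := by ext i j; simp

theorem ratio (hA : A.det ≠ 0) (H : Mx d) (σ : ℂ) (K : ℝ) :
    (Aᵀ * H * A.map (starRingEnd ℂ)).det.re / (K * ‖A.det ^ 2 * σ‖) = H.det.re / (K * ‖σ‖) := by
  have h2 : (A.map (starRingEnd ℂ)).det = starRingEnd ℂ A.det := by rw [RingHom.map_det]; rfl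
  have h3 : ‖A.det‖ ^ 2 ≠ 0 := pow_ne_zero _ (norm_ne_zero_iff.2 hA)
  rw [Matrix.det_mul, Matrix.det_mul, Matrix.det_transpose, h2, mul_right_comm, Complex.mul_conj,
    Complex.re_ofReal_mul, Complex.normSq_eq_norm_sq, norm_mul, norm_pow, mul_left_comm,
    mul_div_mul_left _ _ h3]

theorem posRe_conj (hA : A.det ≠ 0) (hp : PosRe H) : PosRe (Aᵀ * H * A.map (starRingEnd ℂ)) := by
  intro ξ hξ
  have h2 : A.map (starRingEnd ℂ) *ᵥ ξ ≠ 0 := fun h0 => hξ (Matrix.mulVec_injective_of_isUnit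
    ((Matrix.isUnit_iff_isUnit_det _).2 (isUnit_conj (isUnit_iff_ne_zero.2 hA)))
    (by simpa using h0))
  have h3 := hp _ h2
  rwa [Matrix.star_mulVec, cj_tr, ← Matrix.dotProduct_mulVec, Matrix.mulVec_mulVec,
    Matrix.mulVec_mulVec] at h3

theorem posDef_of_conj (hA : A.det ≠ 0) (hp : (Aᵀ * H * A.map (starRingEnd ℂ)).PosDef) :
    H.PosDef := by
  have hu := isUnit_conj (isUnit_iff_ne_zero.2 hA)
  set C := A.map (starRingEnd ℂ) with hC
  have h3 := hp.conjTranspose_mul_mul_same (B := C⁻¹) (Matrix.mulVec_injective_of_isUnit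
    ((Matrix.isUnit_iff_isUnit_det _).2 (Matrix.isUnit_nonsing_inv_det _ hu)))
  rwa [← cj_tr A, ← hC, ← Matrix.mul_assoc, ← Matrix.mul_assoc, ← Matrix.conjTranspose_mul,
    Matrix.mul_nonsing_inv _ hu, Matrix.conjTranspose_one, Matrix.one_mul, Matrix.mul_assoc,
    Matrix.mul_nonsing_inv _ hu, Matrix.mul_one] at h3

end alg

section man

variable {d : ℕ} {X : Type} [TopologicalSpace X] [ChartedSpace (Cm d) X] {P : Type}
  [NormedAddCommGroup P] [NormedSpace ℝ P]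

theorem j2_joint {u : P → X → ℝ} {N : Set P} (hu : JSm (Cm d) u N) {a : P} (ha : a ∈ N)
    {e : Chart d X} {x : X} (hx : At e x) :
    ContDiffAt ℝ ∞ (fun r : P × Cm d => j2 e (u r.1) (e.symm r.2)) (a, e x) := by
  set U : P × Cm d → ℝ := fun r => u r.1 (e.symm r.2) with hU
  set y := e x with hy
  have h1 : ContDiffAt ℝ ∞ U (a, y) := hu a ha e hx.1 y hx.mem_target
  have h2 : ContDiffAt ℝ ∞ (fun r : P × Cm d => fderiv ℝ (fun z => U (r.1, z)) r.2) (a, y) :=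
    ContDiffAt.fderiv (f := fun (r : P × Cm d) z => U (r.1, z)) (g := fun r => r.2)
      (m := ∞) (n := ∞) (ContDiffAt.comp (((a, y), y) : (P × Cm d) × Cm d) (g := U)
        (f := fun q : (P × Cm d) × Cm d => (q.1.1, q.2)) h1 (by fun_prop))
      contDiffAt_snd (by simp)
  have h3 : ContDiffAt ℝ ∞ (fun r : P × Cm d =>
      fderiv ℝ (fun z' => fderiv ℝ (fun z => U (r.1, z)) z') r.2) (a, y) :=
    ContDiffAt.fderiv (f := fun (r : P × Cm d) z' => fderiv ℝ (fun z => U (r.1, z)) z')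
      (g := fun r => r.2) (m := ∞) (n := ∞)
      (ContDiffAt.comp (((a, y), y) : (P × Cm d) × Cm d)
        (g := fun r : P × Cm d => fderiv ℝ (fun z => U (r.1, z)) r.2)
        (f := fun q : (P × Cm d) × Cm d => (q.1.1, q.2)) h2 (by fun_prop))
      contDiffAt_snd (by simp)
  refine (h2.prodMk h3).congr_of_eventuallyEq ?_
  filter_upwards [continuousAt_snd.eventually hx.nhds_target] with r hr
  simp only [j2, jet, e.right_inv hr, hU]

theorem jsm_const {u : X → ℝ} (hu : SmoothFn (n := d) u) (N : Set P) :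
    JSm (Cm d) (fun _ : P => u) N := fun a _ e he y hy =>
  ContDiffAt.comp (a, y) (g := fun z => u (e.symm z))
    (by simpa only [e.right_inv hy] using hu e _ (At.of_target he hy)) contDiffAt_snd

theorem j2_add {u v : X → ℝ} (hu : SmoothFn (n := d) u) (hv : SmoothFn (n := d) v)
    {e : Chart d X} {x : X} (hx : At e x) : j2 e (u + v) x = j2 e u x + j2 e v x :=
  congrArg Prod.snd (Cov.jet_add (hu.c2Fn e x hx) (hv.c2Fn e x hx))

theorem sm_add {u v : X → ℝ} (hu : SmoothFn (n := d) u) (hv : SmoothFn (n := d) v) :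
    SmoothFn (n := d) (u + v) := fun e x hx => (hu e x hx).add (hv e x hx)

theorem jsm_comp {a : ℕ} {Y : Type} [TopologicalSpace Y] [ChartedSpace (Cm a) Y] {u : P → X → ℝ}
    {N : Set P} (hu : JSm (Cm d) u N) {ψ : Y → X} {g : Y → P} {y : Y} {e : Chart a Y}
    (he : At e y) (hψ : SmP a d ψ y) (hg : ContDiffAt ℝ ∞ (fun z => g (e.symm z)) (e y))
    (hy : g y ∈ N) : ContDiffAt ℝ ∞ (fun z => u (g (e.symm z)) (ψ (e.symm z))) (e y) := by
  have hm := AMP.at_chartAt (n := d) (ψ y)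
  set m := chartAt (Cm d) (ψ y)
  have h1 := hu _ hy m hm.1 _ hm.mem_target
  rw [← he.left_inv] at h1
  refine (ContDiffAt.comp (e y) (f := fun z => (g (e.symm z), m (ψ (e.symm z)))) h1
    (hg.prodMk (hψ.sm e m he hm))).congr_of_eventuallyEq ?_
  filter_upwards [H956.nhds_at_map hψ.cont he hm] with z hz
  simp only [Function.comp, hz.2.2.left_inv]

theorem sm_comp {a : ℕ} {Y : Type} [TopologicalSpace Y] [ChartedSpace (Cm a) Y] {u : X → ℝ}
    (hu : SmoothFn (n := d) u) {ψ : Y → X} (hψ : ∀ y, SmP a d ψ y) :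
    SmoothFn (n := a) fun y => u (ψ y) := fun _ y hy =>
  jsm_comp (jsm_const hu (univ : Set ℝ)) (g := fun _ => 0) hy (hψ y) contDiffAt_const (mem_univ _)

variable [IsManifold 𝓘(ℂ, Cm d) ω X]

theorem real_addH {w : MF d X} (hw : IsKahler w) {u : X → ℝ} (hu : SmoothFn (n := d) u) :
    IsReal11 (addH w u) := (isReal11_kahler hw).add (isReal11_ddc hu)

variable [T2Space X] [CompactSpace X] [ConnectedSpace X]

theorem hk_of_det {w₀ s w : MF d X} (h : IsSymplectic d X w₀ s) (hw : IsKahler w) {C : ℝ}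
    (hC : ∀ e x, At e x → (w e (e x)).det.re = C * ‖(s e (e x)).det‖) : ∃ κ, IsHK s w κ := by
  refine exists_isHK h hw fun e x hx => ?_
  have k : (fun z => Real.log (w e z).det.re) =ᶠ[𝓝 (e x)]
      fun z => Real.log ‖(s e z).det‖ + Real.log C := by
    filter_upwards [hx.nhds_target] with z hz
    have h1 := At.of_target hx.1 hz
    have h2 := hC e _ h1
    have h3 := hw.toIsHermitian.det_re_pos h1
    have h4 := norm_ne_zero_iff.2 (h.nondeg e _ h1)
    rw [e.right_inv hz] at h2 h3 h4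
    rw [h2] at h3 ⊢
    rw [Real.log_mul (left_ne_zero_of_mul h3.ne') h4, add_comm]
  have k3 : P299.D.ric w e (e x) = 0 := by
    rw [P299.D.ric, C2.cHess_congr k, C2.cHess_add (((isCanonical_s h.form h.nondeg).smooth e x
      hx).of_le (by norm_cast)) contDiffAt_const, cHess_log_det_s h.form h.nondeg hx,
      C2.cHess_const]
    simp
  rw [k3]
  exact Matrix.PosSemidef.zero

end man

variable {n r : ℕ} {B : BB n r} {F : Fr B} {k : Fin r → ℝ} {D : ℕ} {V : Mf D} {W : Fld V} {c : ℕ}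
  {t₀ : Cm (c + 1)} {δ : ℝ} {L : LF F k W c t₀ δ} {t₁ t : Cm (c + 1)}

open Classical in
/-- the Monge-Ampère operator of the fibre over `t` -/
def Tv.MA (T : Tv L t₁) (K : ℝ) (t : Cm (c + 1)) (u : (L.Φ t₁).Y.V.X → ℝ)
    (x : (L.Φ t₁).Y.V.X) : ℝ :=
  if h : ∃ z, (L.Φ t).i z = T.Θ t x then
    (T.w u t (chartAt _ h.choose) (chartAt (Cm (n + n)) h.choose h.choose)).det.re /
      (K * ‖((L.Φ t).s (chartAt _ h.choose) (chartAt (Cm (n + n)) h.choose h.choose)).det‖)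
  else 0

theorem Tv.ex (T : Tv L t₁) (ht : t ∈ ball t₀ δ) (x : (L.Φ t₁).Y.V.X) :
    ∃ z, (L.Φ t).i z = T.Θ t x := (L.emb t ht).ex ⟨(T.h1 t ht x).1, (T.h1 t ht x).2.1⟩

theorem Tv.MA_eq (T : Tv L t₁) (K : ℝ) (ht : t ∈ ball t₀ δ) {u : (L.Φ t₁).Y.V.X → ℝ}
    (hu : SmoothFn (n := n + n) u) {x : (L.Φ t₁).Y.V.X} {z : (L.Φ t).Y.V.X}
    (hz : (L.Φ t).i z = T.Θ t x) {e' : Chart (n + n) _} (he : At e' z) :
    T.MA K t u x = (T.w u t e' (e' z)).det.re / (K * ‖((L.Φ t).s e' (e' z)).det‖) := by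
  have h := T.ex ht x
  have h1 : h.choose = z := (L.emb t ht).inj (h.choose_spec.trans hz.symm)
  have hx := AMP.at_chartAt (n := n + n) x
  obtain ⟨H, σ, -, -, h2⟩ := T.loc ht hx
  have h3 := h2.self_of_nhds z (by simpa only [hx.left_inv] using hz)
  obtain ⟨A, a1, a2, a3⟩ := h3 e' he
  obtain ⟨A', b1, b2, b3⟩ := h3 _ (AMP.at_chartAt z)
  rw [Tv.MA, dif_pos h, h1, a2, b2, a3 u hu, b3 u hu, ratio a1, ratio b1]

theorem Tv.rp (T : Tv L t₁) {K : ℝ} (hK : K ≠ 0) {u₁ : (L.Φ t₁).Y.V.X → ℝ}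
    (h₁ : SmoothFn (n := n + n) u₁) {p : Cm (c + 1)} (hp : t₁ + p ∈ ball t₀ δ)
    (x : (L.Φ t₁).Y.V.X) : Rp (n + n) (fun p u => T.MA K (t₁ + p) (u₁ + u)) p x := by
  intro e hx
  obtain ⟨H, σ, h1, h2, h3⟩ := T.loc hp hx
  have hσ : σ (t₁ + p, e x) ≠ 0 := by
    obtain ⟨z, hz⟩ := T.ex hp x
    obtain ⟨A, -, a2, -⟩ := h3.self_of_nhds z (by simpa only [hx.left_inv] using hz) _
      (AMP.at_chartAt z)
    exact right_ne_zero_of_mul (a2 ▸ (L.sym _ hp).2 _ z (AMP.at_chartAt z))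
  refine ⟨fun q => (H (t₁ + q.1, q.2.1, j2 e u₁ (e.symm q.2.1) + q.2.2)).det.re /
    (K * ‖σ (t₁ + q.1, q.2.1)‖), fun j => ContDiffAt.div ?_ (contDiffAt_const.mul ?_)
    (mul_ne_zero hK (norm_ne_zero_iff.2 hσ)), ?_⟩
  · refine Complex.reCLM.contDiff.contDiffAt.comp _ (cda_det fun a b => ?_)
    refine ContDiffAt.comp (p, e x, j) (g := fun q => H q a b) (h1 _ a b)
      ((contDiffAt_const.add contDiffAt_fst).prodMk (contDiffAt_snd.fst.prodMk
        (ContDiffAt.add ?_ contDiffAt_snd.snd)))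
    exact ContDiffAt.comp (p, e x, j)
      (f := fun q : Cm (c + 1) × Cm (n + n) × J2 (Cm (n + n)) => (q.1, q.2.1))
      (j2_joint (jsm_const h₁ univ) (mem_univ p) hx) (by fun_prop)
  · exact ContDiffAt.norm ℂ (ContDiffAt.comp (p, e x, j) (g := σ) h2 (by fun_prop)) hσ
  · have k0 : ContinuousAt (fun q : Cm (c + 1) × Cm (n + n) => (t₁ + q.1, q.2)) (p, e x) := by
      fun_prop
    filter_upwards [k0.eventually h3, k0.fst.eventually (isOpen_ball.mem_nhds hp),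
      continuousAt_snd.eventually hx.nhds_target] with q q1 q2 q3 u hu
    obtain ⟨z, hz⟩ := T.ex q2 (e.symm q.2)
    obtain ⟨A, a1, a2, a3⟩ := q1 z hz _ (AMP.at_chartAt z)
    rw [T.MA_eq K q2 (sm_add h₁ hu) hz (AMP.at_chartAt z), a2, a3 _ (sm_add h₁ hu), ratio a1,
      j2_add h₁ hu (At.of_target hx.1 q3)]

theorem Tv.w_base (T : Tv L t₁) (ht : t₁ ∈ ball t₀ δ) (u : (L.Φ t₁).Y.V.X → ℝ) :
    T.w u t₁ = addH (pullM (L.Φ t₁).i W) u := by
  have h : ∀ z, T.Ψ ((L.Φ t₁).i z) = z := fun z => T.base z ▸ (T.h1 t₁ ht z).2.2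
  simp only [Tv.w, h]

theorem Tv.real (T : Tv L t₁) (ht : t ∈ ball t₀ δ) {u : (L.Φ t₁).Y.V.X → ℝ}
    (hu : SmoothFn (n := n + n) u) : IsReal11 (T.w u t) := by
  have h0 : ∀ z, SmP (n + n) (n + n) (fun z => T.Ψ ((L.Φ t).i z)) z := fun z =>
    SmP.comp (g := T.Ψ) (smP_hol ((L.emb t ht).hol.at z)) (T.Ψs _ ((L.emb t ht).mem z).1)
  exact real_addH (L.kc t ht).1 (sm_comp hu h0)

theorem Tv.pos (T : Tv L t₁) (ht : t₁ ∈ ball t₀ δ) {u : Cm (c + 1) → (L.Φ t₁).Y.V.X → ℝ}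
    {N : Set (Cm (c + 1))} (hN : N ∈ 𝓝 0) (hu : JSm (Cm (n + n)) u N)
    (h0 : IsKahler (addH (pullM (L.Φ t₁).i W : Fld (L.Φ t₁).Y.V) (u 0))) :
    ∀ᶠ p in 𝓝 (0 : Cm (c + 1)), ∀ x ∈ (univ : Set (L.Φ t₁).Y.V.X), ∀ z,
      (L.Φ (t₁ + p)).i z = T.Θ (t₁ + p) x → ∀ e', At e' z →
        PosRe (T.w (u p) (t₁ + p) e' (e' z)) := by
  refine isCompact_univ.eventually_forall_of_forall_eventually fun x _ => ?_
  have hx := AMP.at_chartAt (n := n + n) x
  set e := chartAt (Cm (n + n)) x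
  have hN0 := mem_of_mem_nhds hN
  obtain ⟨H, σ, h1, -, h3⟩ := T.loc ht hx
  obtain ⟨A, a1, -, a3⟩ := h3.self_of_nhds x (by simpa only [hx.left_inv] using (T.base x).symm)
    e hx
  have h4 := h0.posDef e x hx
  rw [← T.w_base ht, a3 _ (jsm_sm hu hN0)] at h4
  obtain ⟨ε, hε, hP⟩ := posRe_of_near (posDef_of_conj a1 h4)
  have k0 : ContinuousAt (fun r : Cm (c + 1) × (L.Φ t₁).Y.V.X => (r.1, e r.2)) (0, x) :=
    continuousAt_fst.prodMk (ContinuousAt.comp (f := Prod.snd) (x := (0, x))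
      (e.continuousAt hx.2) continuousAt_snd)
  have k1 : Tendsto (fun r : Cm (c + 1) × (L.Φ t₁).Y.V.X => (t₁ + r.1, e r.2)) (𝓝 (0, x))
      (𝓝 (t₁, e x)) := by
    simpa [ContinuousAt] using (continuousAt_const (y := t₁).add k0.fst).prodMk k0.snd
  have k2 : Tendsto (fun r : Cm (c + 1) × (L.Φ t₁).Y.V.X => j2 e (u r.1) (e.symm (e r.2)))
      (𝓝 (0, x)) (𝓝 (j2 e (u 0) (e.symm (e x)))) :=
    ContinuousAt.comp (f := fun r : Cm (c + 1) × (L.Φ t₁).Y.V.X => (r.1, e r.2)) (x := (0, x))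
      (j2_joint hu hN0 hx).continuousAt k0
  have k3 : ∀ a b, ∀ᶠ r : Cm (c + 1) × (L.Φ t₁).Y.V.X in 𝓝 (0, x),
      ‖H (t₁ + r.1, e r.2, j2 e (u r.1) (e.symm (e r.2))) a b -
        H (t₁, e x, j2 e (u 0) (e.symm (e x))) a b‖ ≤ ε := fun a b => by
    have k4 := (h1 _ a b).continuousAt.tendsto.comp
      (k1.fst_nhds.prodMk_nhds (k1.snd_nhds.prodMk_nhds k2))
    filter_upwards [Metric.tendsto_nhds.1 k4 ε hε] with r hr
    rw [dist_eq_norm] at hr
    exact hr.le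
  filter_upwards [k1.eventually h3, continuousAt_fst.eventually hN,
    continuousAt_snd.eventually (e.open_source.mem_nhds hx.2),
    eventually_all.2 fun a => eventually_all.2 fun b => k3 a b] with r r1 r2 r3 r4 z hz e' he'
  obtain ⟨A', b1, -, b3⟩ := r1 z (by simpa only [e.left_inv r3] using hz) e' he'
  rw [b3 _ (jsm_sm hu r2)]
  exact posRe_conj b1 (hP _ r4)

/-- **CYV** -/
theorem cyv (h2 : LA2) : Hl.CYV := by
  intro n r B F k D V W c t₀ δ L hk t ht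
  have : NeZero (n + n) := ⟨by have := B.npos; omega⟩
  have hc : ∀ t, ConnectedSpace (L.Φ t).Y.V.X := fun t =>
    have := (L.Φ t).Y.sc
    inferInstance
  have hs : ∀ t ∈ ball t₀ δ, IsSymplectic (n + n) _ (pullM (L.Φ t).i W) (L.Φ t).s := fun t ht =>
    (h2 n r B _ _ _ _ _ ⟨L.sym t ht, L.kc t ht, hk⟩).1
  obtain ⟨T⟩ := exists_tv L ht
  obtain ⟨u₁, κ₁, h₁, hκ⟩ := exists_rf (hs t ht) (L.kc t ht).1
  set w₁ : Fld (L.Φ t).Y.V := addH (pullM (L.Φ t).i W) u₁ with hw₁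
  have hK : 0 < Real.sqrt (κ₁ ^ (n + n)) := Real.sqrt_pos.2 (pow_pos hκ.pos _)
  have hd : ∀ e x, At e x →
      (w₁ e (e x)).det.re = Real.sqrt (κ₁ ^ (n + n)) * ‖((L.Φ t).s e (e x)).det‖ := by
    intro e x hx
    have h3 := det_rel (hκ.kahler.posDef e x hx) (isUnit_iff_ne_zero.2 ((hs t ht).nondeg e x hx))
      (hκ.rel e x hx)
    rw [← Real.sqrt_sq (hκ.kahler.toIsHermitian.det_re_pos hx).le, h3,
      Real.sqrt_mul (pow_pos hκ.pos _).le, Real.sqrt_sq (norm_nonneg _)]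
  set K := Real.sqrt (κ₁ ^ (n + n))
  obtain ⟨δ', hδ', hb⟩ := Metric.isOpen_iff.1 isOpen_ball t ht
  have hb' : ∀ p ∈ ball (0 : Cm (c + 1)) δ', t + p ∈ ball t₀ δ := fun p hp =>
    hb (by simpa using hp)
  obtain ⟨N, u, C, hN, hN0, hu0, hu, heq⟩ := abx hκ.kahler.toIsHermitian hδ'
    (fun p hp x => T.rp hK.ne' h₁ (hb' p hp) x) (fun u hu e x hx => by
      have hp := hκ.kahler.posDef e x hx
      have h3 : addH (pullM (L.Φ t).i W) (u₁ + u) e (e x) =
          w₁ e (e x) * (1 + (w₁ e (e x))⁻¹ * ddc u e (e x)) := by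
        rw [Matrix.mul_add, Matrix.mul_one, ← Matrix.mul_assoc,
          Matrix.mul_nonsing_inv _ (isUnit_iff_ne_zero.2 hp.det_pos.ne'), Matrix.one_mul, hw₁, addH,
          addH, add_assoc]
        exact congrArg _ (AMP.hess_add' h₁ hu hx)
      show T.MA K (t + 0) (u₁ + u) x = _
      rw [add_zero, T.MA_eq K ht (sm_add h₁ hu) (T.base x).symm hx, T.w_base ht, ← hd e x hx, h3,
        Matrix.det_mul, det_eq_re hp, Complex.re_ofReal_mul, Complex.ofReal_re,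
        mul_div_cancel_left₀ _ (hκ.kahler.toIsHermitian.det_re_pos hx).ne'])
  have hU : JSm (Cm (n + n)) (fun p => u₁ + u p) N := fun p hp e he y hy =>
    (jsm_const h₁ N p hp e he y hy).add (hu p hp e he y hy)
  have hp := T.pos ht (hN.mem_nhds hN0) hU (by
    rw [show u 0 = 0 from funext hu0, add_zero]; exact hκ.kahler)
  obtain ⟨N', n1, n2, n3⟩ := _root_.eventually_nhds_iff.1
    (hp.and ((show ∀ᶠ p in 𝓝 (0 : Cm (c + 1)), p ∈ N from hN.mem_nhds hN0).and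
      (ball_mem_nhds 0 hδ')))
  have key : ∀ t', ∃ κ, t' - t ∈ N' → IsHK (L.Φ t').s
      (Hl.wF L (fun y => (u₁ + u (L.g y - t)) (T.Ψ y)) t') κ := by
    intro t'
    obtain ⟨p, rfl⟩ : ∃ p, t' = t + p := ⟨t' - t, by abel⟩
    rw [add_sub_cancel_left]
    by_cases h : p ∈ N'
    swap
    · exact ⟨0, fun h' => (h h').elim⟩
    obtain ⟨p1, p2, p3⟩ := n1 p h
    have q1 := hb' p p3
    have q2 : Hl.wF L (fun y => (u₁ + u (L.g y - t)) (T.Ψ y)) (t + p) =
        T.w (u₁ + u p) (t + p) := by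
      have q3 : ∀ z, L.g ((L.Φ (t + p)).i z) = t + p := fun z => ((L.emb _ q1).mem z).2
      simp only [Hl.wF, Tv.w, q3, add_sub_cancel_left]
    have q4 : ∀ z, (L.Φ (t + p)).i z = T.Θ (t + p) (T.Ψ ((L.Φ (t + p)).i z)) := fun z => by
      have q5 := T.h2 _ ((L.emb _ q1).mem z).1
      rw [((L.emb _ q1).mem z).2] at q5
      exact q5.symm
    have q6 := T.real q1 (jsm_sm hU p2)
    obtain ⟨κ, hκ'⟩ := hk_of_det (hs _ q1) (isKahler_of q6 fun e z hz =>
      posDef_of_posRe (q6.herm e z hz) (p1 _ (mem_univ _) z (q4 z) e hz)) (C := C p * K)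
      fun e z hz => by
        have q7 := heq p p2 (T.Ψ ((L.Φ (t + p)).i z))
        rw [T.MA_eq K q1 (jsm_sm hU p2) (q4 z) hz, div_eq_iff (mul_ne_zero hK.ne'
          (norm_ne_zero_iff.2 ((hs _ q1).nondeg e z hz)))] at q7
        rw [q7, mul_assoc]
    exact ⟨κ, fun _ => q2 ▸ hκ'⟩
  choose κ hκ' using key
  refine ⟨{t' | t' - t ∈ N'}, fun y => (u₁ + u (L.g y - t)) (T.Ψ y), κ, by simpa using n3,
    n2.preimage (continuous_id.sub continuous_const), fun t' h => ?_, fun y hy h e he => ?_, hκ'⟩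
  · simpa using hb' _ (n1 _ h).2.2
  · exact jsm_comp hU (g := fun y => L.g y - t) he (T.Ψs y hy)
      (((an_g L hy he).contDiffAt.restrict_scalars ℝ).sub contDiffAt_const) (n1 _ h).2.1

end Vale.Agent.P301Z.Cs
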