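import Vale.Agent.P301Z.Cs.St1
import Vale.Agent.P301Z.Cs.Cyf

/-!
# P301: the energy lemma for complex functions
-/

open scoped Manifold ContDiff ComplexOrder Topology Matrix ComplexConjugate
open Set Filter
open Vale.Agent.P272.K Vale.Agent.P272.K.INT Vale.Agent.P301.H450 Vale.Agent.P301.H599

set_option linter.unusedSectionVars false

noncomputable section

namespace Vale.Agent.P301Z.Cs

variable {d : ℕ}

/-- the Hermitian part of `M` is positive definite -/
def PosRe (M : Matrix (Fin d) (Fin d) ℂ) : Prop :=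
  ∀ ξ : Cm d, ξ ≠ 0 → 0 < (star ξ ⬝ᵥ M *ᵥ ξ).re

theorem posRe_of_near {P : Matrix (Fin d) (Fin d) ℂ} (hP : P.PosDef) :
    ∃ ε : ℝ, 0 < ε ∧ ∀ M : Matrix (Fin d) (Fin d) ℂ, (∀ i j, ‖M i j - P i j‖ ≤ ε) → PosRe M := by
  obtain ⟨c, hc, hcx⟩ := N.exists_coercive hP
  refine ⟨c / (2 * ((d : ℝ) ^ 2 + 1)), by positivity, fun M hMP x hx => ?_⟩
  have h1 := N.re_quadratic_le (D := M - P) (ε := c / (2 * ((d : ℝ) ^ 2 + 1)))
    (by simpa using hMP) x
  have h2 : star x ⬝ᵥ M.mulVec x = star x ⬝ᵥ P.mulVec x + star x ⬝ᵥ (M - P).mulVec x := by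
    rw [← dotProduct_add, ← Matrix.add_mulVec]; simp
  have h3 := hcx x
  have h4 : -‖star x ⬝ᵥ (M - P).mulVec x‖ ≤ (star x ⬝ᵥ (M - P).mulVec x).re :=
    neg_le_of_abs_le (Complex.abs_re_le_norm _)
  have hn : 0 < ‖x‖ ^ 2 := by positivity
  have h5 : (d : ℝ) ^ 2 * (c / (2 * ((d : ℝ) ^ 2 + 1))) ≤ c / 2 := by
    rw [← mul_div_assoc, div_le_div_iff₀ (by positivity) (by positivity)]
    nlinarith [sq_nonneg (d : ℝ)]
  rw [h2, Complex.add_re]
  nlinarith

theorem sum_det_updateRow (M B : Matrix (Fin d) (Fin d) ℂ) :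
    ∑ r, (M.updateRow r (B r)).det = (B * M.adjugate).trace := by
  simp only [Matrix.trace, Matrix.diag_apply, Matrix.mul_apply]
  refine Finset.sum_congr rfl fun r _ => ?_
  rw [← Matrix.cramer_transpose_apply, Matrix.cramer_eq_adjugate_mulVec,
    ← Matrix.adjugate_transpose]
  simp [Matrix.mulVec, dotProduct, mul_comm]

variable {X : Type} [TopologicalSpace X] [ChartedSpace (Cm d) X] {E E' W : MF d X} {f g : X → ℝ}

theorem coForm_smul (hE : IsCoForm E) (a : ℂ) : IsCoForm fun e z => a • E e z where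
  smooth e x h i j := contDiffAt_const.mul (hE.smooth e x h i j)
  change e e' x h h' := by
    rw [Matrix.mul_smul, Matrix.smul_mul, hE.change e e' x h h', smul_comm]
  div e x h j := by
    have h1 : ∀ i, dz i (fun y => (a • E e y) j i) (e x) = a * dz i (fun y => E e y j i) (e x) :=
      fun i => INT.dz_const_mul a ((hE.smooth e x h j i).differentiableAt (by simp))
    simp only [h1]
    rw [← Finset.mul_sum, hE.div e x h j, mul_zero]

theorem coForm_sum {ι : Type} (s : Finset ι) {E : ι → MF d X} (hE : ∀ k ∈ s, IsCoForm (E k)) :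
    IsCoForm fun e z => ∑ k ∈ s, E k e z where
  smooth e x h i j := by
    simp only [Matrix.sum_apply]
    exact ContDiffAt.sum fun k hk => (hE k hk).smooth e x h i j
  change e e' x h h' := by
    rw [Matrix.mul_sum, Matrix.sum_mul, Finset.smul_sum]
    exact Finset.sum_congr rfl fun k hk => (hE k hk).change e e' x h h'
  div e x h j := by
    have h1 : ∀ i, dz i (fun y => (∑ k ∈ s, E k e y) j i) (e x) =
        ∑ k ∈ s, dz i (fun y => E k e y j i) (e x) := fun i => by
      simp only [Matrix.sum_apply]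
      exact INT.dz_sum s fun k hk => ((hE k hk).smooth e x h j i).differentiableAt (by simp)
    simp only [h1]
    rw [Finset.sum_comm]
    exact Finset.sum_eq_zero fun k hk => (hE k hk).div e x h j

variable [IsManifold 𝓘(ℂ, Cm d) ω X]

/-- the adjugate of a closed `(1,1)`-form -/
theorem coForm_adj (hW : IsClosedForm W) : IsCoForm fun e z => (W e z).adjugate where
  smooth e x h i j := by
    simp only [Matrix.adjugate_apply]
    refine INT.contDiffAt_det fun a b => ?_
    by_cases hab : a = j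
    · subst hab
      simp only [Matrix.updateRow_self]
      exact contDiffAt_const
    · simp only [Matrix.updateRow_ne hab]
      exact hW.smooth e x h a b
  change e e' x h h' := by
    rw [hW.form e e' x h h']
    set J := jacM e e' x with hJ
    rw [Matrix.adjugate_mul_distrib, Matrix.adjugate_mul_distrib]
    have h1 : J.map (starRingEnd ℂ) * ((J.map (starRingEnd ℂ)).adjugate *
        ((W e' (e' x)).adjugate * Jᵀ.adjugate)) * Jᵀ =
        (J.map (starRingEnd ℂ) * (J.map (starRingEnd ℂ)).adjugate) * (W e' (e' x)).adjugate *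
          (Jᵀ.adjugate * Jᵀ) := by simp only [Matrix.mul_assoc]
    have h2 : (J.map (starRingEnd ℂ)).det = conj J.det := by
      rw [RingHom.map_det]; rfl
    rw [h1, Matrix.mul_adjugate, Matrix.adjugate_mul, Matrix.det_transpose, h2]
    simp only [Matrix.smul_mul, Matrix.mul_smul, Matrix.one_mul, Matrix.mul_one, smul_smul]
    rw [Complex.mul_conj, Complex.normSq_eq_norm_sq]
  div e x h j := by
    have h1 := piola (M := W e) (a := fun _ => Pi.single j 1) (z := e x)
      (fun a b => (hW.smooth e x h a b).differentiableAt (by simp))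
      (fun l => differentiableAt_const _) (hW.closed e x h)
    simp only [Matrix.adjugate_apply]
    rw [h1]
    refine Finset.sum_eq_zero fun r _ => Matrix.det_eq_zero_of_row_eq_zero r fun l => ?_
    simp

theorem posRe_change (hE : IsCoForm E) {e e' : Chart d X} {x : X} (h : At e x) (h' : At e' x)
    (hp : PosRe (E e (e x))) : PosRe (E e' (e' x)) := by
  intro ξ hξ
  have hJ := jacM_isUnit h h'
  have h1 := hE.change e e' x h h'
  set J := jacM e e' x with hJ'
  have h2 : Jᵀ *ᵥ ξ ≠ 0 := fun h0 => hξ (Matrix.mulVec_injective_of_isUnit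
    ((Matrix.isUnit_iff_isUnit_det _).2 (by rwa [Matrix.det_transpose])) (by simpa using h0))
  have h3 := hp _ h2
  have h4 : star (Jᵀ *ᵥ ξ) ⬝ᵥ E e (e x) *ᵥ (Jᵀ *ᵥ ξ) =
      star ξ ⬝ᵥ (J.map (starRingEnd ℂ) * E e (e x) * Jᵀ) *ᵥ ξ := by
    rw [Matrix.star_mulVec, ← Matrix.mulVec_mulVec, ← Matrix.mulVec_mulVec,
      Matrix.dotProduct_mulVec (star ξ)]
    rfl
  rw [h4, h1, Matrix.smul_mulVec, dotProduct_smul, smul_eq_mul, Complex.re_ofReal_mul] at h3
  exact pos_of_mul_pos_left' h3 (sq_nonneg _)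
where pos_of_mul_pos_left' {a b : ℝ} (h : 0 < a * b) (ha : 0 ≤ a) : 0 < b :=
  (pos_iff_pos_of_mul_pos h).1 (lt_of_le_of_ne ha (by rintro rfl; simp at h))

/-- the coefficients of `∂̄ (f + i g)`, conjugated -/
def bet (f g : X → ℝ) (e : Chart d X) (z : Cm d) : Cm d := fun j =>
  dz j (fun y => ((f (e.symm y) : ℝ) : ℂ)) z - Complex.I * dz j (fun y => ((g (e.symm y) : ℝ) : ℂ)) z

theorem energy_pt (f g : X → ℝ) (e : Chart d X) (z : Cm d) (A : Matrix (Fin d) (Fin d) ℂ) :
    (fdd f f e z * A).trace + (fdd g g e z * A).trace + (fdd f g e z * (Complex.I • A)).trace -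
      (fdd g f e z * (Complex.I • A)).trace =
      ((f (e.symm z) : ℂ) - Complex.I * g (e.symm z)) *
        ((ddc f e z + Complex.I • ddc g e z) * A).trace +
      star (bet f g e z) ⬝ᵥ A *ᵥ bet f g e z := by
  have h1 : star (bet f g e z) ⬝ᵥ A *ᵥ bet f g e z =
      ∑ i, ∑ j, bet f g e z i * star (bet f g e z j) * A j i := by
    rw [Finset.sum_comm]
    simp only [dotProduct, Matrix.mulVec, Finset.mul_sum, Pi.star_apply]
    exact Finset.sum_congr rfl fun i _ => Finset.sum_congr rfl fun j _ => by ring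
  rw [h1]
  simp only [Matrix.trace, Matrix.diag_apply, Matrix.mul_apply, Finset.mul_sum,
    ← Finset.sum_add_distrib, ← Finset.sum_sub_distrib]
  refine Finset.sum_congr rfl fun i _ => Finset.sum_congr rfl fun j _ => ?_
  simp only [fdd, AMP.hess, AMP.dd, ddc, bet, Matrix.add_apply, Matrix.smul_apply, smul_eq_mul,
    Matrix.of_apply, AMP.dzb_real_eq, RCLike.star_def, map_sub, map_mul, Complex.conj_I]
  linear_combination (A j i * ((g (e.symm z) : ℂ) * cHess (fun y => g (e.symm y)) z i j +
    dz i (fun y => ((g (e.symm y) : ℝ) : ℂ)) z *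
      conj (dz j (fun y => ((g (e.symm y) : ℝ) : ℂ)) z))) * Complex.I_mul_I

variable [T2Space X] [CompactSpace X]

theorem bet_eq_zero (hE : IsCoForm E) (hp : ∀ e x, At e x → PosRe (E e (e x)))
    (hf : SmoothFn (n := d) f) (hg : SmoothFn (n := d) g)
    (h0 : ∀ e x, At e x → ((ddc f e (e x) + Complex.I • ddc g e (e x)) * E e (e x)).trace = 0)
    {e : Chart d X} {x : X} (hx : At e x) : bet f g e (e x) = 0 := by
  have hI := coForm_smul hE Complex.I
  have D1 := dens_fdd hE hf hf
  have D2 := dens_fdd hE hg hg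
  have D3 := dens_fdd hI hf hg
  have D4 := dens_fdd hI hg hf
  have hD := ((D1.add D2).add D3).sub D4
  have h1 := intX_sub ((D1.add D2).add D3) D4
  rw [intX_add (D1.add D2) D3, intX_add D1 D2, intX_fdd hE hf hf, intX_fdd hE hg hg,
    intX_fdd hI hf hg, intX_fdd hI hg hf] at h1
  have h2 : ∀ e x, At e x → (fdd f f e (e x) * E e (e x)).trace.re +
      (fdd g g e (e x) * E e (e x)).trace.re +
      (fdd f g e (e x) * (Complex.I • E e (e x))).trace.re -
      (fdd g f e (e x) * (Complex.I • E e (e x))).trace.re =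
      (star (bet f g e (e x)) ⬝ᵥ E e (e x) *ᵥ bet f g e (e x)).re := by
    intro e x hx
    have h3 := congrArg Complex.re (energy_pt f g e (e x) (E e (e x)))
    rw [h0 e x hx, mul_zero, zero_add] at h3
    exact h3
  by_contra hne
  have h4 := Vale.Agent.P299.H954.intX_pos_of_pos hD (x := x) (fun e y hy => by
      rw [h2 e y hy]
      by_cases hb : bet f g e (e y) = 0
      · simp [hb]
      · exact (hp e y hy _ hb).le) (fun e' hx' => by
      have h5 := hD.change e e' x hx hx'
      have h6 := hp e x hx _ hne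
      rw [← h2 e x hx] at h6
      exact posRe_change.pos_of_mul_pos_left' (a := ‖(jacM e e' x).det‖ ^ 2)
        (by rw [mul_comm]; exact h5 ▸ h6) (sq_nonneg _))
  rw [h1] at h4
  simp at h4

theorem ddc_of_bet (hf : SmoothFn (n := d) f) (hg : SmoothFn (n := d) g)
    (hb : ∀ (e : Chart d X) x, At e x → bet f g e (e x) = 0) {e : Chart d X} {x : X}
    (hx : At e x) : ddc f e (e x) = 0 ∧ ddc g e (e x) = 0 := by
  have h1 : ddc f e (e x) + Complex.I • ddc g e (e x) = 0 := by
    ext i j
    have h2 : (dzb j fun y => ((f (e.symm y) : ℝ) : ℂ)) =ᶠ[𝓝 (e x)]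
        fun z => -Complex.I * dzb j (fun y => ((g (e.symm y) : ℝ) : ℂ)) z := by
      filter_upwards [hx.nhds_target] with z hz
      have h3 := congrFun (hb e _ (At.of_target hx.1 hz)) j
      rw [e.right_inv hz] at h3
      simp only [bet, Pi.zero_apply, sub_eq_zero] at h3
      rw [AMP.dzb_real_eq, AMP.dzb_real_eq, h3, map_mul, Complex.conj_I]
    simp only [ddc, Matrix.add_apply, Matrix.smul_apply, smul_eq_mul, INT.cHess_apply,
      Matrix.zero_apply]
    rw [INT.dz_congr h2, INT.dz_const_mul _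
      ((smooth_dzb (INT.ofReal_contDiffAt (hg e x hx))).differentiableAt (by simp))]
    ring
  have h2 := congrArg Matrix.conjTranspose h1
  rw [Matrix.conjTranspose_add, Matrix.conjTranspose_smul, ((isReal11_ddc hf).herm e x hx).eq,
    ((isReal11_ddc hg).herm e x hx).eq, Matrix.conjTranspose_zero] at h2
  have h3 : ddc f e (e x) = 0 := by
    ext i j
    have a1 := congrFun (congrFun h1 i) j
    have a2 := congrFun (congrFun h2 i) j
    simp only [Matrix.add_apply, Matrix.smul_apply, smul_eq_mul, Matrix.zero_apply,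
      RCLike.star_def, Complex.conj_I] at a1 a2 ⊢
    linear_combination (a1 + a2) / 2
  rw [h3, zero_add] at h1
  exact ⟨h3, (smul_eq_zero.1 h1).resolve_left Complex.I_ne_zero⟩

variable [ConnectedSpace X] {w : MF d X}

theorem const_of_ddc (hw : IsHermitian w) (hf : SmoothFn (n := d) f)
    (h : ∀ (e : Chart d X) x, At e x → ddc f e (e x) = 0) (x y : X) : f x = f y := by
  refine Ab.Bij.const_of_nonneg (lapL hw) (fun _ => rfl)
    (N.c2Fn_iff.1 hf.c2Fn) (fun x => ?_) x y
  show 0 ≤ (_ * ddc f _ _).trace.re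
  rw [h _ x (AMP.at_chartAt x)]
  simp

/-- **energy lemma**: a complex function with `tr (i∂∂̄ψ · E) = c det w` is constant -/
theorem energy (hw : IsHermitian w) (hE : IsCoForm E) (hp : ∀ e x, At e x → PosRe (E e (e x)))
    (hf : SmoothFn (n := d) f) (hg : SmoothFn (n := d) g) {c : ℂ}
    (h0 : ∀ e x, At e x → ((ddc f e (e x) + Complex.I • ddc g e (e x)) * E e (e x)).trace =
      c * (w e (e x)).det) (x y : X) : f x = f y ∧ g x = g y := by
  have hV : 0 < intX fun e z => (w e z).det.re :=
    intX_pos (isDensity_det hw.change hw.smooth) fun e x hx =>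
      (Complex.pos_iff.1 (hw.posDef e x hx).det_pos).1
  have key : ∀ a : ℂ, (a * c).re = 0 := by
    intro a
    have E1 := coForm_smul hE a
    have E2 := coForm_smul hE (a * Complex.I)
    have c1 := isClosedForm_cHess hf
    have c2 := isClosedForm_cHess hg
    have h1 := intX_add (E1.isDensity c1.form c1.smooth) (E2.isDensity c2.form c2.smooth)
    rw [intX_trace_cHess E1 hf, intX_trace_cHess E2 hg, add_zero] at h1
    have h2 : (a * c).re * intX (fun e z => (w e z).det.re) = 0 := by
      rw [← intX_const_mul, ← h1]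
      refine intX_congr fun e x hx => ?_
      have h3 := h0 e x hx
      rw [N.det_eq_re (hw.posDef e x hx)] at h3
      rw [← Complex.add_re, ← Complex.re_mul_ofReal, mul_assoc, ← h3]
      simp only [Matrix.mul_smul, Matrix.trace_smul, Matrix.add_mul, Matrix.smul_mul,
        Matrix.trace_add, smul_eq_mul, ddc]
      congr 1
      ring
    exact (mul_eq_zero.1 h2).resolve_right hV.ne'
  have hc : c = 0 := by
    have h1 := key (conj c)
    rw [mul_comm, Complex.mul_conj, Complex.ofReal_re] at h1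
    exact Complex.normSq_eq_zero.1 h1
  have hb : ∀ (e : Chart d X) x, At e x → bet f g e (e x) = 0 := fun e x hx =>
    bet_eq_zero hE hp hf hg (fun e x hx => by rw [h0 e x hx, hc, zero_mul]) hx
  exact ⟨const_of_ddc hw hf (fun e x hx => (ddc_of_bet hf hg hb hx).1) x y,
    const_of_ddc hw hg (fun e x hx => (ddc_of_bet hf hg hb hx).2) x y⟩

end Vale.Agent.P301Z.Cs
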