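import Vale.Agent.P301Z.Cs.Cyc

/-!
# P301: perturbations of the Monge-Ampère operator which are given by local expressions
-/

open scoped Manifold ContDiff ComplexOrder Topology Matrix
open Set Filter Asymptotics Metric
open Vale.Agent.P272.K Vale.Agent.P272.K.LIN Vale.Agent.P272.K.N
open Vale.Agent.P301.H599 Vale.Agent.P301.H450 Vale.Agent.P290.H158 Vale.Agent.P267.H661
open Vale.Agent.P301Z.Ab

set_option maxSynthPendingDepth 3
set_option linter.unusedSectionVars false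

noncomputable section

namespace Vale.Agent.P301Z.Cs

variable {d : ℕ} {X : Type} [TopologicalSpace X] [ChartedSpace (Cm d) X]

/-- the symmetric part of a jet -/
def symJ (j : J2 (Cm d)) : J2 (Cm d) := (j.1, (1 / 2 : ℝ) • (j.2 + j.2.flip))

theorem contDiff_symJ : ContDiff ℝ ∞ (symJ (d := d)) :=
  contDiff_fst.prodMk ((contDiff_snd.add
    ((ContinuousLinearMap.flipₗᵢ ℝ (Cm d) (Cm d) ℝ).contDiff.comp contDiff_snd)).const_smul _)

theorem norm_symJ (j : J2 (Cm d)) : ‖(symJ j).2‖ ≤ ‖j‖ := by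
  have h1 := norm_add_le j.2 j.2.flip
  have h2 := norm_snd_le j
  rw [ContinuousLinearMap.opNorm_flip] at h1
  simp only [symJ, norm_smul, Real.norm_eq_abs]
  rw [abs_of_pos (by norm_num)]
  linarith

theorem symJ_j2 {u : X → ℝ} (hu : SmoothFn (n := d) u) {e : Chart d X} {x : X} (hx : At e x) :
    symJ (j2 e u x) = j2 e u x := by
  refine Prod.ext rfl ?_
  have h := ((hu.c2Fn e x hx).isSymmSndFDerivAt (by simp)).eq
  ext1 v
  ext1 v'
  have h2 := h v' v
  simp only [symJ, j2, jet, _root_.smul_apply, _root_.add_apply, ContinuousLinearMap.flip_apply,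
    smul_eq_mul] at h2 ⊢
  rw [h2]
  ring

variable [IsManifold 𝓘(ℂ, Cm d) ω X] [T2Space X]

theorem exists_jet {e : Chart d X} {x : X} (hx : At e x) (j : J2 (Cm d)) :
    ∃ u : X → ℝ, SmoothFn (n := d) u ∧ j2 e u x = symJ j := by
  obtain ⟨r, hr, hs⟩ := nhds_basis_closedBall.mem_iff.1 (e.open_target.mem_nhds hx.mem_target)
  let β : ContDiffBump (e x) := ⟨r / 2, r, half_pos hr, half_lt_self hr⟩
  obtain ⟨p, hp, hj⟩ : ∃ p : Cm d → ℝ, ContDiff ℝ ∞ p ∧ jet p (e x) = (0, symJ j) :=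
    ⟨_, by fun_prop, Bij.jet_quad 0 j.1 (B := (symJ j).2) (fun v v' => by
      simp only [symJ, _root_.smul_apply, _root_.add_apply, ContinuousLinearMap.flip_apply]
      rw [add_comm]) _⟩
  have h1 : CkFn (Cm d) ∞ (ext0 e fun y => β y * p y) :=
    ext0_ck le_rfl hx.1 (isCompact_closedBall _ r) hs (fun y hy => by
      rw [β.zero_of_le_dist (not_le.1 hy).le, zero_mul]) fun y _ => (β.contDiff.mul hp).contDiffAt
  refine ⟨_, smoothFn_iff.2 h1, ?_⟩
  rw [j2, jet_congr (g := p), hj]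
  filter_upwards [hx.nhds_target, β.eventuallyEq_one] with y a b
  rw [ext0_of_mem (e.map_target a), e.right_inv a, b, Pi.one_apply, one_mul]

variable {P : Type} [NormedAddCommGroup P] [NormedSpace ℝ P]

/-- near `(p, x)` the operator `A` is given by a smooth expression -/
def Rp (d : ℕ) [ChartedSpace (Cm d) X] (A : P → (X → ℝ) → X → ℝ) (p : P) (x : X) : Prop :=
  ∀ e : Chart d X, At e x → ∃ Γ : P × Cm d × J2 (Cm d) → ℝ,
    (∀ j, ContDiffAt ℝ ∞ Γ (p, e x, j)) ∧ ∀ᶠ r : P × Cm d in 𝓝 (p, e x), ∀ u,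
      SmoothFn (n := d) u → A r.1 u (e.symm r.2) = Γ (r.1, r.2, j2 e u (e.symm r.2))

open Classical in
/-- a function with the given jet -/
def fnJ (e : Chart d X) (y : Cm d) (j : J2 (Cm d)) : X → ℝ :=
  if h : At e (e.symm y) then (exists_jet h j).choose else 0

theorem fnJ_spec {e : Chart d X} (he : e ∈ atlas (Cm d) X) {y : Cm d} (hy : y ∈ e.target)
    (j : J2 (Cm d)) : SmoothFn (n := d) (fnJ e y j) ∧ j2 e (fnJ e y j) (e.symm y) = symJ j := by
  rw [fnJ, dif_pos (At.of_target he hy)]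
  exact (exists_jet (At.of_target he hy) j).choose_spec

variable {A : P → (X → ℝ) → X → ℝ} {w : MF d X} {τ : P → P}

/-- the nonlinear part -/
def qA (A : P → (X → ℝ) → X → ℝ) (w : MF d X) (τ : P → P) : Expr (Cm d) X P (ℝ × ℝ) := fun e r =>
  (A (τ r.1) (fnJ e r.2.1 r.2.2.1) (e.symm r.2.1) - 1 - trL (w e r.2.1)⁻¹ (symJ r.2.2.1).2, 0)

theorem qA_sm (hw : IsHermitian w) (hτ : ContDiff ℝ ∞ τ) (hA : ∀ p x, Rp d A (τ p) x) :
    (qA A w τ).Sm := by
  intro e he r hr
  obtain ⟨Γ, h1, h2⟩ := hA r.1 _ e (At.of_target he hr)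
  rw [e.right_inv hr] at h1 h2
  have p0 : ContDiff ℝ ∞ fun r : P × Cm d × J2 (Cm d) × J2 (Cm d) => τ r.1 := hτ.comp contDiff_fst
  have p1 : ContDiff ℝ ∞ fun r : P × Cm d × J2 (Cm d) × J2 (Cm d) => r.2.1 :=
    contDiff_fst.comp contDiff_snd
  have p2 : ContDiff ℝ ∞ fun r : P × Cm d × J2 (Cm d) × J2 (Cm d) => symJ r.2.2.1 :=
    contDiff_symJ.comp (contDiff_fst.comp (contDiff_snd.comp contDiff_snd))
  refine ContDiffAt.prodMk (ContDiffAt.sub (ContDiffAt.sub ?_ contDiffAt_const) ?_) contDiffAt_const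
  · refine (ContDiffAt.comp r (g := Γ) (h1 _)
      (p0.prodMk (p1.prodMk p2)).contDiffAt).congr_of_eventuallyEq ?_
    filter_upwards [(p0.prodMk p1).continuous.continuousAt.eventually h2,
      p1.continuous.continuousAt.eventually (e.open_target.mem_nhds hr)] with s h3 h4
    have h5 := fnJ_spec he h4 s.2.2.1
    rw [h3 _ h5.1, h5.2]
    rfl
  · exact (ContDiffAt.comp r (g := (lapS hw).a e) ((lapS hw).smooth e he _ hr)
      p1.contDiffAt).clm_apply (contDiff_snd.comp p2).contDiffAt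

theorem qA_val (hA : ∀ p x, Rp d A (τ p) x) {u : X → ℝ} (hu : SmoothFn (n := d) u) (v : X → ℝ)
    (p : P) {e : Chart d X} {x : X} (hx : At e x) : (qA A w τ).val e p u v x =
      (A (τ p) u x - 1 - ((w e (e x))⁻¹ * ddc u e (e x)).trace.re, 0) := by
  obtain ⟨Γ, -, h2⟩ := hA p x e hx
  have h3 := h2.self_of_nhds
  have h5 := fnJ_spec hx.1 hx.mem_target (j2 e u x)
  have h6 := h3 _ hu
  have h7 := h3 _ h5.1
  rw [h5.2, symJ_j2 hu hx] at h7
  have h1 : lev (j2 e u x).2 = ddc u e (e x) := (cHess_eq_lev (diffble2 (hu.c2Fn e x hx))).symm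
  simp only [hx.left_inv] at h6 h7
  simp only [Expr.val, qA, hx.left_inv]
  rw [h7, ← h6, symJ_j2 hu hx, trL_apply, h1]

variable [CompactSpace X] [ConnectedSpace X] [FiniteDimensional ℝ P]

/-- **ABX**: solutions of `A p u = c`, smooth in all variables -/
theorem abx [NeZero d] (hw : IsHermitian w) {δ : ℝ} (hδ : 0 < δ)
    (hA : ∀ p ∈ ball (0 : P) δ, ∀ x, Rp d A p x)
    (h0 : ∀ u, SmoothFn (n := d) u → ∀ e x, At e x →
      A 0 u x = (1 + (w e (e x))⁻¹ * ddc u e (e x)).det.re) :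
    ∃ (N : Set P) (u : P → X → ℝ) (c : P → ℝ), IsOpen N ∧ 0 ∈ N ∧ (∀ x, u 0 x = 0) ∧
      JSm (Cm d) u N ∧ ∀ p ∈ N, ∀ x, A p (u p) x = c p := by
  let β : ContDiffBump (0 : P) := ⟨δ / 2, δ, half_pos hδ, half_lt_self hδ⟩
  have hτ : ContDiff ℝ ∞ fun p : P => β p • p := β.contDiff.smul contDiff_id
  have hA' : ∀ p x, Rp d A (β p • p) x := fun p => hA _ (by
    by_cases hp : δ ≤ dist p 0
    · rw [β.zero_of_le_dist hp, zero_smul]
      exact mem_ball_self hδ
    · rw [mem_ball_zero_iff, norm_smul, Real.norm_of_nonneg β.nonneg]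
      rw [dist_zero_right, not_le] at hp
      exact (mul_le_of_le_one_left (norm_nonneg _) β.le_one).trans_lt hp)
  obtain ⟨N, u, v, c, hN, hN0, hu0, hu, -, heq⟩ := ab_main (Cm d) X P (lapL hw)
    (qA A w fun p => β p • p) (fun _ => rfl) (qA_sm hw hτ hA') (fun p u v hu _ e he e' he' x hx hx' => by
      have hs : SmoothFn (n := d) u := smoothFn_iff.2 hu
      rw [qA_val hA' hs v p ⟨he, hx⟩, qA_val hA' hs v p ⟨he', hx'⟩,
        trace_inv hw.isForm (isReal11_ddc hs).form ⟨he, hx⟩ ⟨he', hx'⟩]) (fun e he y hy => by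
      have h1 : (fun j : J2 (Cm d) × J2 (Cm d) => qA A w (fun p => β p • p) e (0, y, j)) = fun j =>
          ((1 + (w e y)⁻¹ * lev (symJ j.1).2).det.re - 1 - trL (w e y)⁻¹ (symJ j.1).2, (0 : ℝ)) := by
        funext j
        have h5 := fnJ_spec he hy j.1
        have h6 := h0 _ h5.1 e _ (At.of_target he hy)
        have h7 : lev (j2 e (fnJ e y j.1) (e.symm y)).2 = ddc (fnJ e y j.1) e (e (e.symm y)) :=
          (cHess_eq_lev (diffble2 (h5.1.c2Fn e _ (At.of_target he hy)))).symm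
        rw [← h7, h5.2, e.right_inv hy] at h6
        simp only [qA, smul_zero, h6]
      rw [h1]
      refine IsLittleO.prod_left ?_ (isLittleO_zero _ _)
      have ht : Tendsto (fun j : J2 (Cm d) × J2 (Cm d) => (symJ j.1).2) (𝓝 0) (𝓝 0) :=
        (continuous_snd.comp (contDiff_symJ.continuous.comp continuous_fst)).tendsto' 0 0
          (by simp [symJ])
      refine ((det_littleO (w e y)⁻¹).comp_tendsto ht).trans_isBigO ?_
      exact IsBigO.of_bound' (Eventually.of_forall fun j => (norm_symJ j.1).trans (norm_fst_le j)))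
  refine ⟨N ∩ ball 0 (δ / 2), u, fun p => (c p).1 + 1, hN.inter isOpen_ball,
    ⟨hN0, mem_ball_self (half_pos hδ)⟩, fun x => (hu0 x).1, fun p hp => hu p hp.1,
    fun p hp x => ?_⟩
  have hx := AMP.at_chartAt (n := d) x
  have h1 := congrArg Prod.fst (heq p hp.1 _ hx.1 x hx.2)
  rw [qA_val hA' (jsm_sm hu hp.1) _ p hx, β.one_of_mem_closedBall (ball_subset_closedBall hp.2),
    one_smul] at h1
  have h2 : (lapL hw).Q (u p) x = ((w (chartAt (Cm d) x) (chartAt (Cm d) x x))⁻¹ *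
    ddc (u p) (chartAt (Cm d) x) (chartAt (Cm d) x x)).trace.re := rfl
  simp only [Prod.fst_add, h2] at h1
  linarith

end Vale.Agent.P301Z.Cs
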