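import Vale.Agent.P301Z.Cs.Par
import Vale.Agent.P301Z.Df.Defs

/-!
# P301: the complexified Monge-Ampère equation, existence
-/

open scoped Manifold ContDiff ComplexOrder Topology Matrix
open Set Filter Asymptotics Complex
open Vale.Agent.P272.K Vale.Agent.P272.K.LIN Vale.Agent.P272.K.N
open Vale.Agent.P301.H599 Vale.Agent.P301.H450 Vale.Agent.P290.H158 Vale.Agent.P267.H661
open Vale.Agent.P301Z.Ab
open Vale.Agent.P301Z.Df (cpert)

set_option maxSynthPendingDepth 3
set_option linter.unusedSectionVars false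

noncomputable section

namespace Vale.Agent.P301Z.Cs

variable {d m : ℕ} {X : Type} [TopologicalSpace X] [ChartedSpace (Cm d) X]

/-- the complex Hessian of a pair of jets -/
def lev2 (j : J2 (Cm d) × J2 (Cm d)) : Matrix (Fin d) (Fin d) ℂ := lev j.1.2 + I • lev j.2.2

theorem contDiff_lev2 (a b : Fin d) : ContDiff ℝ ∞ fun j : J2 (Cm d) × J2 (Cm d) => lev2 j a b :=
  ((contDiff_lev a b).comp (contDiff_snd.comp contDiff_fst)).add
    (contDiff_const.mul ((contDiff_lev a b).comp (contDiff_snd.comp contDiff_snd)))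

theorem lev2_smul (t : ℝ) (j : J2 (Cm d) × J2 (Cm d)) : lev2 (t • j) = (t : ℂ) • lev2 j := by
  simp only [lev2, Prod.smul_fst, Prod.smul_snd, lev_smul, smul_add]
  rw [smul_comm I]

theorem det_littleO2 (A : Matrix (Fin d) (Fin d) ℂ) :
    (fun j : J2 (Cm d) × J2 (Cm d) => (1 + A * lev2 j).det - 1 - (A * lev2 j).trace) =o[𝓝 0]
      fun j => j := by
  set G := fun j : J2 (Cm d) × J2 (Cm d) => (1 + A * lev2 j).det - 1 - (A * lev2 j).trace with hG
  have hm : ∀ a b, ContDiff ℝ ∞ fun j : J2 (Cm d) × J2 (Cm d) => (A * lev2 j) a b := fun a b => by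
    simp only [Matrix.mul_apply]
    exact ContDiff.sum fun l _ => contDiff_const.mul (contDiff_lev2 l b)
  have hc : ContDiff ℝ ∞ G := by
    refine ((contDiff_det fun a b => ?_).sub contDiff_const).sub ?_
    · exact contDiff_const.add (hm a b)
    · exact ContDiff.sum fun a _ => hm a a
  have hd := (hc.differentiable (by simp) 0).hasFDerivAt
  have he : fderiv ℝ G 0 = 0 := by
    refine ContinuousLinearMap.ext fun B => ?_
    have hl : HasDerivAt (fun t : ℝ => t • B) B 0 := by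
      simpa using (hasDerivAt_id (0 : ℝ)).smul_const B
    have h2 : HasFDerivAt G (fderiv ℝ G 0) ((0 : ℝ) • B) := by simpa using hd
    have h3 := h2.comp_hasDerivAt (0 : ℝ) hl
    have h4 := hasDerivAt_det 1 (A * lev2 B) 0
    have h5 : HasDerivAt (fun t : ℝ => (t : ℂ) * (A * lev2 B).trace) (A * lev2 B).trace 0 := by
      simpa using (Complex.ofRealCLM.hasDerivAt (x := 0)).mul_const (A * lev2 B).trace
    have h6 := (h4.sub_const 1).sub h5
    simp only [ofReal_zero, zero_smul, add_zero, Matrix.adjugate_one, Matrix.mul_one,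
      sub_self] at h6
    refine h3.unique (h6.congr_of_eventuallyEq (Eventually.of_forall fun t => ?_))
    simp [hG, lev2_smul]
  rw [he] at hd
  have h0 : lev2 (0 : J2 (Cm d) × J2 (Cm d)) = 0 := by simpa using lev2_smul (d := d) 0 0
  simpa [hG, h0] using hd.isLittleO

/-- the nonlinear part of the complex Monge-Ampère operator -/
def Fc (w : MF d X) (θ : Fin m → MF d X) (e : Chart d X)
    (r : Cm m × Cm d × J2 (Cm d) × J2 (Cm d)) : ℂ :=
  ((w e r.2.1)⁻¹ * (w e r.2.1 + ∑ i, r.1 i • θ i e r.2.1 + lev2 r.2.2)).det - 1 -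
    ((w e r.2.1)⁻¹ * lev2 r.2.2).trace

/-- real and imaginary part -/
def qC (w : MF d X) (θ : Fin m → MF d X) : Expr (Cm d) X (Cm m) (ℝ × ℝ) := fun e r =>
  ((Fc w θ e r).re, (Fc w θ e r).im)

variable [IsManifold 𝓘(ℂ, Cm d) ω X] {w : MF d X} {θ : Fin m → MF d X}

theorem qC_sm (hw : IsHermitian w) (hθ : ∀ i, IsReal11 (θ i)) : (qC w θ).Sm := by
  intro e he r hr
  have p1 : ContDiffAt ℝ ∞ (fun r : Cm m × Cm d × J2 (Cm d) × J2 (Cm d) => r.2.1) r :=
    (contDiff_fst.comp contDiff_snd).contDiffAt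
  have p2 : ContDiffAt ℝ ∞ (fun r : Cm m × Cm d × J2 (Cm d) × J2 (Cm d) => r.2.2) r :=
    (contDiff_snd.comp contDiff_snd).contDiffAt
  have hi : ∀ j k, ContDiffAt ℝ ∞
      (fun r : Cm m × Cm d × J2 (Cm d) × J2 (Cm d) => (w e r.2.1)⁻¹ j k) r := fun j k =>
    ContDiffAt.comp r (g := fun y => (w e y)⁻¹ j k) (contDiffAt_inv
      (fun a b => hw.smooth_target he hr a b) (hw.det_ne_zero_target he hr) j k) p1
  have hl : ∀ j k, ContDiffAt ℝ ∞
      (fun r : Cm m × Cm d × J2 (Cm d) × J2 (Cm d) => lev2 r.2.2 j k) r := fun j k =>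
    ContDiffAt.comp r (g := fun B => lev2 B j k) (contDiff_lev2 j k).contDiffAt p2
  have hF : ContDiffAt ℝ ∞ (Fc w θ e) r := by
    refine ContDiffAt.sub (ContDiffAt.sub ?_ contDiffAt_const) ?_
    · refine cda_det fun j k => ?_
      simp only [Matrix.mul_apply, Matrix.add_apply, Matrix.sum_apply, Matrix.smul_apply,
        smul_eq_mul]
      refine ContDiffAt.sum fun l _ =>
        (hi j l).mul (ContDiffAt.add (ContDiffAt.add ?_ ?_) (hl l k))
      · exact ContDiffAt.comp r (g := fun y => w e y l k) (hw.smooth_target he hr l k) p1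
      · refine ContDiffAt.sum fun i _ => ContDiffAt.mul ?_ ?_
        · exact ((contDiff_apply ℝ ℂ i).comp contDiff_fst).contDiffAt
        · exact ContDiffAt.comp r (g := fun y => θ i e y l k)
            (smooth_tgt (hθ i).toIsClosedForm he hr l k) p1
    · simp only [Matrix.trace, Matrix.diag_apply, Matrix.mul_apply]
      exact ContDiffAt.sum fun j _ => ContDiffAt.sum fun l _ => (hi j l).mul (hl l j)
  exact (Complex.reCLM.contDiff.contDiffAt.comp r hF).prodMk
    (Complex.imCLM.contDiff.contDiffAt.comp r hF)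

theorem lev2_val {u v : X → ℝ} (hu : C2Fn (n := d) u) (hv : C2Fn (n := d) v) {e : Chart d X}
    {x : X} (h : At e x) : lev2 (j2 e u x, j2 e v x) = ddc u e (e x) + I • ddc v e (e x) := by
  have h1 : lev (j2 e u x).2 = ddc u e (e x) := (cHess_eq_lev (diffble2 (hu e x h))).symm
  have h2 : lev (j2 e v x).2 = ddc v e (e x) := (cHess_eq_lev (diffble2 (hv e x h))).symm
  rw [lev2, h1, h2]

theorem Fc_val {u v : X → ℝ} (hu : C2Fn (n := d) u) (hv : C2Fn (n := d) v) (a : Cm m)
    {e : Chart d X} {x : X} (h : At e x) : Fc w θ e (a, e x, j2 e u x, j2 e v x) =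
      ((w e (e x))⁻¹ * cpert w θ a u v e (e x)).det - 1 -
        ((w e (e x))⁻¹ * (ddc u e (e x) + I • ddc v e (e x))).trace := by
  simp only [Fc, lev2_val hu hv h, cpert]

theorem closed_sum (hθ : ∀ i, IsReal11 (θ i)) (a : Cm m) (s : Finset (Fin m)) :
    INT.IsClosedForm fun (e : Chart d X) z => ∑ i ∈ s, a i • θ i e z := by
  classical
  induction s using Finset.induction_on with
  | empty =>
    have h := (isReal11_ddc (d := d) (X := X) (u := fun _ => 0)
      (fun _ _ _ => contDiffAt_const)).toIsClosedForm.smul 0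
    simpa using h
  | insert i s hi ih =>
    simp only [Finset.sum_insert hi]
    exact ((hθ i).toIsClosedForm.smul (a i)).add ih

theorem closed_ddc2 {u v : X → ℝ} (hu : SmoothFn (n := d) u) (hv : SmoothFn (n := d) v) :
    INT.IsClosedForm fun (e : Chart d X) z => ddc u e z + I • ddc v e z :=
  (isReal11_ddc hu).toIsClosedForm.add ((isReal11_ddc hv).toIsClosedForm.smul I)

theorem closed_cpert (hw : IsKahler w) (hθ : ∀ i, IsReal11 (θ i)) (a : Cm m) {u v : X → ℝ}
    (hu : SmoothFn (n := d) u) (hv : SmoothFn (n := d) v) : INT.IsClosedForm (cpert w θ a u v) :=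
  ((isReal11_kahler hw).toIsClosedForm.add (closed_sum hθ a Finset.univ)).add (closed_ddc2 hu hv)

theorem qC_compat (hw : IsKahler w) (hθ : ∀ i, IsReal11 (θ i)) : (qC w θ).Compat := by
  intro a u v hu hv e he e' he' x hx hx'
  have hs : SmoothFn (n := d) u := smoothFn_iff.2 hu
  have hs' : SmoothFn (n := d) v := smoothFn_iff.2 hv
  have h1 : At e x := ⟨he, hx⟩
  have h2 : At e' x := ⟨he', hx'⟩
  simp only [Expr.val, qC]
  rw [Fc_val hs.c2Fn hs'.c2Fn a h1, Fc_val hs.c2Fn hs'.c2Fn a h2,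
    det_inv_form hw.isForm (closed_cpert hw hθ a hs hs').form h1 h2,
    trace_inv hw.isForm (closed_ddc2 hs hs').form h1 h2]

theorem qC_small (hw : IsHermitian w) {e : Chart d X} (he : e ∈ atlas (Cm d) X) {y : Cm d}
    (hy : y ∈ e.target) :
    (fun j : J2 (Cm d) × J2 (Cm d) => qC w θ e (0, y, j)) =o[𝓝 0] fun j => j := by
  have hu : IsUnit (w e y).det := isUnit_iff_ne_zero.2 (hw.det_ne_zero_target he hy)
  have h1 : (fun j : J2 (Cm d) × J2 (Cm d) => Fc w θ e (0, y, j)) =o[𝓝 0] fun j => j := by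
    refine (det_littleO2 (w e y)⁻¹).congr_left fun j => ?_
    simp [Fc, Matrix.mul_add, Matrix.nonsing_inv_mul _ hu]
  exact ((IsBigO.of_bound' (Eventually.of_forall fun j => abs_re_le_norm _)).trans_isLittleO
    h1).prod_left
    ((IsBigO.of_bound' (Eventually.of_forall fun j => abs_im_le_norm _)).trans_isLittleO h1)

variable {P : Type} [NormedAddCommGroup P] [NormedSpace ℝ P]

theorem jsm_sm {u : P → X → ℝ} {N : Set P} (hu : JSm (Cm d) u N) {a : P} (ha : a ∈ N) :
    SmoothFn (n := d) (u a) := fun e x h =>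
  ContDiffAt.comp (e x) (g := fun r : P × Cm d => u r.1 (e.symm r.2))
    (f := fun z => (a, z)) (hu a ha e h.1 (e x) h.mem_target)
    (contDiffAt_const.prodMk contDiffAt_id)

theorem jsm_pt {u : P → X → ℝ} {N : Set P} (hu : JSm (Cm d) u N) {a : P} (ha : a ∈ N) (x : X) :
    ContDiffAt ℝ ∞ (fun p => u p x) a := by
  have h := AMP.at_chartAt (n := d) x
  have h1 := ContDiffAt.comp a (g := fun r : P × Cm d => u r.1 ((chartAt (Cm d) x).symm r.2))
    (f := fun p => (p, chartAt (Cm d) x x)) (hu a ha _ h.1 _ h.mem_target)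
    (contDiffAt_id.prodMk contDiffAt_const)
  simpa [Function.comp_def] using h1

theorem jsm_norm {u : P → X → ℝ} {N : Set P} (hu : JSm (Cm d) u N) (x : X) :
    JSm (Cm d) (fun p y => u p y - u p x) N := fun a ha e he y hy =>
  (hu a ha e he y hy).sub (ContDiffAt.comp (a, y) (g := fun p => u p x) (jsm_pt hu ha x)
    contDiffAt_fst)

theorem ddc_sub_const {u : X → ℝ} (hu : SmoothFn (n := d) u) (c : ℝ) {e : Chart d X} {x : X}
    (h : At e x) : ddc (fun y => u y - c) e (e x) = ddc u e (e x) := by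
  have h1 := AMP.hess_sub' hu (v := fun _ => c) (fun _ _ _ => contDiffAt_const) h
  rwa [AMP.hess_const', sub_zero] at h1

/-- the entries of the perturbed form are smooth in all variables -/
theorem cpert_joint (hw : IsKahler w) (hθ : ∀ i, IsReal11 (θ i)) {u v : Cm m → X → ℝ}
    {N : Set (Cm m)} (hu : JSm (Cm d) u N) (hv : JSm (Cm d) v N) {a : Cm m} (ha : a ∈ N)
    {e : Chart d X} (he : e ∈ atlas (Cm d) X) {y : Cm d} (hy : y ∈ e.target) (j k : Fin d) :
    ContDiffAt ℝ ∞ (fun r : Cm m × Cm d => cpert w θ r.1 (u r.1) (v r.1) e r.2 j k) (a, y) := by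
  simp only [cpert, Matrix.add_apply, Matrix.sum_apply, Matrix.smul_apply, smul_eq_mul]
  refine ContDiffAt.add (ContDiffAt.add ?_ ?_) ((cHess_joint (hu a ha e he y hy) j k).add
    (contDiffAt_const.mul (cHess_joint (hv a ha e he y hy) j k)))
  · exact ContDiffAt.comp (a, y) (g := fun z => w e z j k)
      (hw.toIsHermitian.smooth_target he hy j k) contDiffAt_snd
  · refine ContDiffAt.sum fun i _ => ContDiffAt.mul ?_ ?_
    · exact ((contDiff_apply ℝ ℂ i).comp contDiff_fst).contDiffAt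
    · exact ContDiffAt.comp (a, y) (g := fun z => θ i e z j k)
        (smooth_tgt (hθ i).toIsClosedForm he hy j k) contDiffAt_snd

theorem trace_real {A B : Matrix (Fin d) (Fin d) ℂ} (hA : A.IsHermitian) (hB : B.IsHermitian) :
    (A⁻¹ * B).trace = ((A⁻¹ * B).trace.re : ℂ) := by
  have h1 : (A⁻¹ * B)ᴴ = B * A⁻¹ := by rw [Matrix.conjTranspose_mul, hB.eq, hA.inv.eq]
  have h2 := congrArg Matrix.trace h1
  rw [Matrix.trace_conjTranspose, Matrix.trace_mul_comm B] at h2
  exact (Complex.conj_eq_iff_re.1 h2).symm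

variable [T2Space X] [CompactSpace X] [ConnectedSpace X]

/-- existence of normalised solutions -/
theorem cyc_ex [NeZero d] (hw : IsKahler w) (hθ : ∀ i, IsReal11 (θ i)) (x0 : X) :
    ∃ (N : Set (Cm m)) (u v : Cm m → X → ℝ) (c : Cm m → ℂ), IsOpen N ∧ 0 ∈ N ∧
      (∀ x, u 0 x = 0 ∧ v 0 x = 0) ∧ JSm (Cm d) u N ∧ JSm (Cm d) v N ∧
      (∀ a, u a x0 = 0 ∧ v a x0 = 0) ∧ ∀ a ∈ N, ∀ e x, At e x →
        (cpert w θ a (u a) (v a) e (e x)).det = c a * (w e (e x)).det := by
  obtain ⟨N, u, v, c, hN, h0, hu0, hu, hv, heq⟩ := ab_main (Cm d) X (Cm m)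
    (lapL hw.toIsHermitian) (qC w θ) (fun _ => rfl) (qC_sm hw.toIsHermitian hθ)
    (qC_compat hw hθ) (fun e he y hy => qC_small hw.toIsHermitian he hy)
  refine ⟨N, fun p y => u p y - u p x0, fun p y => v p y - v p x0,
    fun a => 1 + ((c a).1 + (c a).2 * I), hN, h0, fun x => by simp [hu0], jsm_norm hu x0,
    jsm_norm hv x0, fun a => by simp, fun a ha e x hx => ?_⟩
  have hs := jsm_sm hu ha
  have hs' := jsm_sm hv ha
  have h1 := heq a ha e hx.1 x hx.2
  have h2 : ∀ f : X → ℝ, SmoothFn (n := d) f → (((lapL hw.toIsHermitian).Q f x : ℝ) : ℂ) =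
      ((w e (e x))⁻¹ * ddc f e (e x)).trace := fun f hf => by
    rw [trace_real (hw.posDef e x hx).1 ((isReal11_ddc hf).herm e x hx)]
    exact congrArg (fun z : ℂ => (z.re : ℂ))
      (trace_inv hw.isForm (isReal11_ddc hf).form (AMP.at_chartAt x) hx)
  have h3 : cpert w θ a (fun y => u a y - u a x0) (fun y => v a y - v a x0) e (e x) =
      cpert w θ a (u a) (v a) e (e x) := by
    simp only [cpert, ddc_sub_const hs _ hx, ddc_sub_const hs' _ hx]
  have h4 := Fc_val (w := w) (θ := θ) hs.c2Fn hs'.c2Fn a hx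
  rw [Matrix.mul_add, Matrix.trace_add, Matrix.mul_smul, Matrix.trace_smul, ← h2 _ hs, ← h2 _ hs',
    smul_eq_mul] at h4
  have h5 := congrArg (fun r : ℝ × ℝ => (r.1 : ℂ) + r.2 * I) h1
  simp only [Expr.val, qC, Prod.fst_add, Prod.snd_add, ofReal_add] at h5
  have h6 := re_add_im (Fc w θ e (a, e x, j2 e (u a) x, j2 e (v a) x))
  have h7 : ((w e (e x))⁻¹ * cpert w θ a (u a) (v a) e (e x)).det =
      1 + ((c a).1 + (c a).2 * I) := by linear_combination h5 - h6 - h4
  have hp := hw.posDef e x hx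
  beta_reduce
  rw [h3, ← h7, mul_comm, ← Matrix.det_mul, ← Matrix.mul_assoc,
    Matrix.mul_nonsing_inv _ (isUnit_iff_ne_zero.2 hp.det_pos.ne'), Matrix.one_mul]

end Vale.Agent.P301Z.Cs
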