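import Vale.Agent.P301Z.Cs.Abx
import Vale.Agent.P301Z.Pt.Ret
import Vale.Agent.P301Z.Hl.Defs
import Vale.Agent.P299.H956.D1.Pull
import Vale.Agent.P299.H726.Pull

/-!
# P301: the metrics on the fibres of a family in a smooth trivialisation
-/

open scoped Manifold ContDiff ComplexOrder Topology Matrix
open Set Filter Metric Function
open Vale.Agent.P272.K Vale.Agent.P272.K.LIN Vale.Agent.P272.K.N
open Vale.Agent.P281Z (Mf Emb)
open Vale.Agent.P299.D (pullM jacF)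
open Vale.Agent.P299
open Vale.Agent.P301Z.Ab Vale.Agent.P301Z.Lat Vale.Agent.P301Z.Pt

set_option maxSynthPendingDepth 3

noncomputable section

namespace Vale.Agent.P301Z.Cs

/-- a smooth frame of the kernel of the differential of a submersion -/
theorem frame {D p d : ℕ} (hD : D = p + d) {G : Cm D → Cm p} {ζ₀ : Cm D}
    (hG : AnalyticAt ℂ G ζ₀) (hs : Surjective (fderiv ℂ G ζ₀)) :
    ∃ Bm : Cm D → Matrix (Fin D) (Fin d) ℂ, (∀ a b, ContDiffAt ℝ ∞ (fun ζ => Bm ζ a b) ζ₀) ∧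
      ∀ᶠ ζ in 𝓝 ζ₀, ∀ J : Matrix (Fin D) (Fin d) ℂ, (∀ v, fderiv ℂ G ζ (J *ᵥ v) = 0) →
        Injective J.mulVec → ∃ A : Mx d, A.det ≠ 0 ∧ J = Bm ζ * A := by
  set T := (fderiv ℂ G ζ₀).toLinearMap with hT
  have hk : Module.finrank ℂ T.ker = Module.finrank ℂ (Cm d) := by
    have h := T.finrank_range_add_finrank_ker
    rw [LinearMap.range_eq_top.2 hs, finrank_top] at h
    simp only [Module.finrank_fin_fun] at h ⊢
    omega
  set κ := LinearEquiv.ofFinrankEq _ _ hk with hκ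
  obtain ⟨l, hl⟩ := (T.ker.subtype ∘ₗ κ.symm.toLinearMap).exists_leftInverse_of_injective
    (LinearMap.ker_eq_bot.2 (T.ker.injective_subtype.comp κ.symm.injective))
  set M : Cm D → Cm D →L[ℂ] Cm p × Cm d := fun ζ =>
    (fderiv ℂ G ζ).prod (LinearMap.toContinuousLinearMap l) with hM
  have hi : Injective (M ζ₀) := by
    refine (injective_iff_map_eq_zero (M ζ₀)).2 fun v hv => ?_
    have h1 : v ∈ T.ker := congrArg Prod.fst hv
    have h2 : l v = 0 := congrArg Prod.snd hv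
    have h3 := LinearMap.congr_fun hl (κ ⟨v, h1⟩)
    simp only [LinearMap.comp_apply, LinearEquiv.coe_coe, LinearEquiv.symm_apply_apply,
      Submodule.subtype_apply, h2, LinearMap.id_apply] at h3
    exact congrArg Subtype.val (κ.map_eq_zero_iff.1 h3.symm)
  have hb : Surjective (M ζ₀) :=
    (LinearMap.injective_iff_surjective_of_finrank_eq_finrank (f := (M ζ₀).toLinearMap)
      (by simp [hD])).1 hi
  set E := ContinuousLinearEquiv.ofBijective (M ζ₀) (LinearMap.ker_eq_bot.2 hi)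
    (LinearMap.range_eq_top.2 hb) with hE
  have hE0 : (E : Cm D →L[ℂ] Cm p × Cm d) = M ζ₀ := ContinuousLinearEquiv.coe_ofBijective _ _ _
  have hMs : ContDiffAt ℂ ∞ M ζ₀ := by
    have h1 : M = fun ζ => (ContinuousLinearMap.inl ℂ _ _).comp (fderiv ℂ G ζ) +
        (ContinuousLinearMap.inr ℂ _ _).comp (LinearMap.toContinuousLinearMap l) := by
      funext ζ
      ext v <;> simp [hM]
    rw [h1]
    exact (contDiffAt_const.clm_comp hG.fderiv.contDiffAt).add contDiffAt_const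
  have hI : ContDiffAt ℂ ∞ (fun ζ => (M ζ).inverse) ζ₀ :=
    ContDiffAt.comp ζ₀ (g := ContinuousLinearMap.inverse) (hE0 ▸ contDiffAt_map_inverse E) hMs
  refine ⟨fun ζ => Matrix.of fun a b => (M ζ).inverse (0, Pi.single b 1) a, fun a b =>
    (contDiffAt_pi.1 (hI.clm_apply contDiffAt_const) a).restrict_scalars ℝ, ?_⟩
  filter_upwards [hMs.continuousAt.eventually (hE0 ▸ E.nhds)] with ζ hζ J h1 h2
  obtain ⟨E', hE'⟩ := hζ
  have h3 : ∀ v, (Matrix.of fun a b => (M ζ).inverse (0, Pi.single b 1) a) *ᵥ v =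
      (M ζ).inverse (0, v) := by
    intro v
    have h4 : ((0, v) : Cm p × Cm d) = ∑ b, v b • ((0, Pi.single b 1) : Cm p × Cm d) := by
      refine Prod.ext (by simp [Prod.fst_sum]) (funext fun a => ?_)
      simp [Prod.snd_sum, Pi.single_apply]
    rw [h4, map_sum]
    funext a
    simp only [Matrix.mulVec, dotProduct, Matrix.of_apply, map_smul, Finset.sum_apply,
      Pi.smul_apply, smul_eq_mul, mul_comm]
  have h5 : J = (Matrix.of fun a b => (M ζ).inverse (0, Pi.single b 1) a) *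
      (LinearMap.toMatrix' l * J) := by
    refine H726.matrix_ext_mulVec fun v => ?_
    rw [← Matrix.mulVec_mulVec, ← Matrix.mulVec_mulVec, h3, LinearMap.toMatrix'_mulVec, eq_comm,
      ContinuousLinearMap.IsInvertible.inverse_apply_eq ⟨E', hE'⟩]
    exact Prod.ext (h1 v).symm rfl
  refine ⟨_, fun h0 => ?_, h5⟩
  obtain ⟨v, hv, hv0⟩ := Matrix.exists_mulVec_eq_zero_iff.2 h0
  exact hv (h2 (by rw [h5, ← Matrix.mulVec_mulVec, hv0]; simp))

theorem jt_smooth {D d : ℕ} {Q : Type} [NormedAddCommGroup Q] [NormedSpace ℝ Q]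
    {A : Q → Cm D →L[ℝ] Cm d} {A' : Q → Cm D →L[ℝ] Cm D →L[ℝ] Cm d} {j : Q → J2 (Cm d)} {q : Q}
    (h1 : ContDiffAt ℝ ∞ A q) (h2 : ContDiffAt ℝ ∞ A' q) (h3 : ContDiffAt ℝ ∞ j q)
    (a b : Fin D) : ContDiffAt ℝ ∞ (fun q => lev (JT (A q) (A' q) (0, j q)).2.2 a b) q := by
  have h4 : ContDiffAt ℝ ∞ (fun q => JT (A q) (A' q)) q :=
    ContDiffAt.comp q (g := fun p : (Cm D →L[ℝ] Cm d) × (Cm D →L[ℝ] Cm D →L[ℝ] Cm d) => JT p.1 p.2)
      (f := fun q => (A q, A' q)) (contDiff_JT (E := Cm D) (F := Cm d)).contDiffAt (h1.prodMk h2)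
  have h5 : ContDiffAt ℝ ∞ (fun q => JT (A q) (A' q) (0, j q)) q :=
    h4.clm_apply (contDiffAt_const.prodMk h3)
  exact ContDiffAt.comp q (g := fun B : Bil D => lev B a b) (contDiff_lev a b).contDiffAt
    h5.snd.snd

variable {n r : ℕ} {B : BB n r} {F : Fr B} {k : Fin r → ℝ} {D : ℕ} {V : Mf D} {W : Fld V} {c : ℕ}
  {t₀ : Cm (c + 1)} {δ : ℝ}

/-- a smooth trivialisation onto the fibre over `t₁` -/
structure Tv (L : LF F k W c t₀ δ) (t₁ : Cm (c + 1)) where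
  Ψ : V.X → (L.Φ t₁).Y.V.X
  Θ : Cm (c + 1) → (L.Φ t₁).Y.V.X → V.X
  h1 : ∀ t ∈ ball t₀ δ, ∀ z, Θ t z ∈ L.O ∧ L.g (Θ t z) = t ∧ Ψ (Θ t z) = z
  h2 : ∀ y ∈ L.O, Θ (L.g y) (Ψ y) = y
  Ψs : ∀ y ∈ L.O, SmP D (n + n) Ψ y
  Θc : ∀ t ∈ ball t₀ δ, ∀ z, ContinuousAt (fun q : Cm (c + 1) × _ => Θ q.1 q.2) (t, z)
  Θs : ∀ t ∈ ball t₀ δ, ∀ z, ∀ (e' : Chart (n + n) _) (e : Chart D V.X), At e' z → At e (Θ t z) →
    ContDiffAt ℝ ∞ (fun q : Cm (c + 1) × Cm (n + n) => e (Θ q.1 (e'.symm q.2))) (t, e' z)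
  base : ∀ z, Θ t₁ z = (L.Φ t₁).i z

theorem exists_tv (L : LF F k W c t₀ δ) {t : Cm (c + 1)} (ht : t ∈ ball t₀ δ) :
    Nonempty (Tv L t) := by
  have he := L.emb t ht
  choose ζ hζ using fun z => he.ex (y := L.Θ t z) ⟨(L.h1 t ht z).1, (L.h1 t ht z).2.1⟩
  have h1 : ∀ z, SmP (n + n) (n + n) ζ z := fun z => by
    refine smP_lift he ?_
    simp only [hζ]
    exact ⟨(L.Θc t ht z).comp (f := fun z => (t, z)) (by fun_prop), fun e e' h h' =>
      (L.Θs t ht z e e' h h').comp (f := fun z => (t, z)) _ (by fun_prop)⟩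
  have h3 : ∀ y, L.Θ t (L.Ψ ((L.Φ t).i y)) = (L.Φ t).i y := fun y => by
    have h3 := L.h2 _ (he.mem y).1
    rwa [(he.mem y).2] at h3
  have h2 : ∀ y, ζ (L.Ψ ((L.Φ t).i y)) = y := fun y => he.inj (by rw [hζ, h3])
  have h4 := fun z => smP_of (L.mor t ht).1 z
  refine ⟨⟨fun x => ζ (L.Ψ x), fun t' z => L.Θ t' (L.Ψ ((L.Φ t).i z)), fun t' ht' z =>
    ⟨(L.h1 t' ht' _).1, (L.h1 t' ht' _).2.1, by rw [(L.h1 t' ht' _).2.2, h2]⟩, fun y hy => ?_,
    fun x hx => SmP.comp ⟨L.Ψc x hx, L.Ψs x hx⟩ (h1 _), fun t' ht' z => ?_,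
    fun t' ht' z e' e k1 k2 => ?_, h3⟩⟩
  · rw [hζ, (L.h1 t ht _).2.2, L.h2 y hy]
  · exact (L.Θc t' ht' _).comp (f := fun q : Cm (c + 1) × _ => (q.1, L.Ψ ((L.Φ t).i q.2)))
      (continuousAt_fst.prodMk (ContinuousAt.comp (f := Prod.snd) (x := (t', z))
        (g := fun z => L.Ψ ((L.Φ t).i z)) (h4 z).cont continuousAt_snd))
  · have k3 := AMP.at_chartAt (n := n + n) (L.Ψ ((L.Φ t).i z))
    set m := chartAt (Cm (n + n)) (L.Ψ ((L.Φ t).i z))
    have k4 := (h4 z).sm e' m k1 k3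
    have k5 := L.Θs t' ht' _ m e k3 k2
    rw [← k1.left_inv] at k5
    refine (ContDiffAt.comp (t', e' z)
      (f := fun q : Cm (c + 1) × Cm (n + n) => (q.1, m (L.Ψ ((L.Φ t).i (e'.symm q.2))))) k5
      (contDiffAt_fst.prodMk (ContDiffAt.comp (t', e' z) (f := Prod.snd) k4
        contDiffAt_snd))).congr_of_eventuallyEq ?_
    filter_upwards [continuousAt_snd.eventually (H956.nhds_at_map (h4 z).cont k1 k3)] with q hq
    simp only [Function.comp, hq.2.2.left_inv]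

variable {L : LF F k W c t₀ δ} {t₁ : Cm (c + 1)}

/-- the metric on the fibre over `t` with the potential `u` -/
def Tv.w (T : Tv L t₁) (u : (L.Φ t₁).Y.V.X → ℝ) (t : Cm (c + 1)) : Fld (L.Φ t).Y.V :=
  addH (pullM (L.Φ t).i W) fun z => u (T.Ψ ((L.Φ t).i z))

theorem an_g (L : LF F k W c t₀ δ) {y : V.X} (hy : y ∈ L.O) {e : Chart D V.X} (he : At e y) :
    AnalyticAt ℂ (fun z => L.g (e.symm z)) (e y) :=
  analyticAt_pi_iff.2 fun a => L.hol y hy a e he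

/-- the local form of the metrics and of the volume forms of the fibres -/
theorem Tv.loc (T : Tv L t₁) {t : Cm (c + 1)} (ht : t ∈ ball t₀ δ)
    {e : Chart (n + n) (L.Φ t₁).Y.V.X} {x : (L.Φ t₁).Y.V.X} (hx : At e x) :
    ∃ (H : Cm (c + 1) × Cm (n + n) × J2 (Cm (n + n)) → Mx (n + n))
      (σ : Cm (c + 1) × Cm (n + n) → ℂ),
      (∀ j a b, ContDiffAt ℝ ∞ (fun q => H q a b) (t, e x, j)) ∧ ContDiffAt ℝ ∞ σ (t, e x) ∧
      ∀ᶠ q : Cm (c + 1) × Cm (n + n) in 𝓝 (t, e x), ∀ z, (L.Φ q.1).i z = T.Θ q.1 (e.symm q.2) →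
        ∀ e', At e' z → ∃ A : Mx (n + n), A.det ≠ 0 ∧
          ((L.Φ q.1).s e' (e' z)).det = A.det ^ 2 * σ q ∧ ∀ u, SmoothFn (n := n + n) u →
          T.w u q.1 e' (e' z) =
            Aᵀ * H (q.1, q.2, j2 e u (e.symm q.2)) * A.map (starRingEnd ℂ) := by
  obtain ⟨y1, -, y3⟩ := T.h1 t ht x
  have hε := AMP.at_chartAt (n := D) (T.Θ t x)
  set ε := chartAt (Cm D) (T.Θ t x)
  obtain ⟨Bm, b1, b2⟩ := frame L.dim (an_g L y1 hε) (L.sbm _ y1 ε hε)
  obtain ⟨S, s1, s2⟩ := L.rel _ y1 ε hε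
  set ξ : Cm (c + 1) × Cm (n + n) → Cm D := fun q => ε (T.Θ q.1 (e.symm q.2)) with hξ
  set η : Cm D → Cm (n + n) := fun ζ => e (T.Ψ (ε.symm ζ)) with hη
  have x1 : ContDiffAt ℝ ∞ ξ (t, e x) := T.Θs t ht x e ε hx hε
  have x0 : ξ (t, e x) = ε (T.Θ t x) := by simp only [hξ, hx.left_inv]
  have x2 : ContDiffAt ℝ ∞ η (ξ (t, e x)) := x0 ▸ (T.Ψs _ y1).sm ε e hε (y3.symm ▸ hx)
  have x3 : ∀ j : J2 (Cm (n + n)), ContDiffAt ℝ ∞
      (fun q : Cm (c + 1) × Cm (n + n) × J2 (Cm (n + n)) => ξ (q.1, q.2.1)) (t, e x, j) :=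
    fun j => ContDiffAt.comp (t, e x, j) (g := ξ) x1 (by fun_prop)
  have cB : ∀ a b, ContDiffAt ℝ ∞ (fun q => Bm (ξ q) a b) (t, e x) := fun a b =>
    ContDiffAt.comp (t, e x) (g := fun ζ => Bm ζ a b) (x0 ▸ b1 a b) x1
  refine ⟨fun q => (Bm (ξ (q.1, q.2.1)))ᵀ * (W ε (ξ (q.1, q.2.1)) + lev (JT (fderiv ℝ η
    (ξ (q.1, q.2.1))) (fderiv ℝ (fderiv ℝ η) (ξ (q.1, q.2.1))) (0, q.2.2)).2.2) *
    (Bm (ξ (q.1, q.2.1))).map (starRingEnd ℂ), fun q => ((Bm (ξ q))ᵀ * S (ξ q) * Bm (ξ q)).det,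
    fun j a b => ?_, cda_det fun a b => ?_, ?_⟩
  · have c1 : ∀ a b, ContDiffAt ℝ ∞ (fun q : Cm (c + 1) × Cm (n + n) × J2 (Cm (n + n)) =>
        Bm (ξ (q.1, q.2.1)) a b) (t, e x, j) := fun a b =>
      ContDiffAt.comp (t, e x, j) (g := fun q => Bm (ξ q) a b) (cB a b) (by fun_prop)
    have d1 := x2.fderiv_right (m := ∞) (le_of_eq rfl)
    have d2 := d1.fderiv_right (m := ∞) (le_of_eq rfl)
    have c2 := jt_smooth (A := fun q : Cm (c + 1) × Cm (n + n) × J2 (Cm (n + n)) =>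
      fderiv ℝ η (ξ (q.1, q.2.1))) (A' := fun q => fderiv ℝ (fderiv ℝ η) (ξ (q.1, q.2.1)))
      (j := fun q => q.2.2) (q := (t, e x, j))
      (ContDiffAt.comp (t, e x, j) (g := fderiv ℝ η) d1 (x3 j))
      (ContDiffAt.comp (t, e x, j) (g := fderiv ℝ (fderiv ℝ η)) d2 (x3 j))
      (contDiff_snd.comp contDiff_snd).contDiffAt
    simp only [Matrix.mul_apply, Matrix.transpose_apply, Matrix.map_apply, Matrix.add_apply]
    refine ContDiffAt.sum fun l _ => ContDiffAt.mul (ContDiffAt.sum fun m _ => (c1 m a).mul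
      (ContDiffAt.add ?_ ?_)) (Complex.conjCLE.contDiff.contDiffAt.comp _ (c1 l b))
    · exact ContDiffAt.comp (t, e x, j) (g := fun ζ => W ε ζ m l)
        (x0 ▸ L.kah.smooth ε _ hε m l) (x3 j)
    · exact c2 m l
  · simp only [Matrix.mul_apply, Matrix.transpose_apply]
    exact ContDiffAt.sum fun l _ => ContDiffAt.mul (ContDiffAt.sum fun m _ => (cB m a).mul
      (ContDiffAt.comp (t, e x) (g := fun ζ => S ζ m l)
        (x0 ▸ ((s1 m l).contDiffAt.restrict_scalars ℝ)) x1)) (cB l b)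
  have k0 : ContinuousAt (fun q : Cm (c + 1) × Cm (n + n) => T.Θ q.1 (e.symm q.2)) (t, e x) :=
    ContinuousAt.comp (f := fun q : Cm (c + 1) × Cm (n + n) => (q.1, e.symm q.2))
      (g := fun q => T.Θ q.1 q.2) (by rw [hx.left_inv]; exact T.Θc t ht x)
      (continuousAt_fst.prodMk (ContinuousAt.comp (f := Prod.snd)
        (e.continuousAt_symm hx.mem_target) continuousAt_snd))
  have k1 : Tendsto (fun q : Cm (c + 1) × Cm (n + n) => T.Θ q.1 (e.symm q.2)) (𝓝 (t, e x))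
      (𝓝 (T.Θ t x)) := by simpa only [ContinuousAt, hx.left_inv] using k0
  filter_upwards [continuousAt_fst.eventually (isOpen_ball.mem_nhds ht),
    continuousAt_snd.eventually hx.nhds_target, k1.eventually (ε.open_source.mem_nhds hε.2),
    k1.eventually s2, x1.continuousAt.eventually (x0 ▸ b2)] with q q1 q2 q3 q4 q5 z hz e' he'
  have hm := L.emb q.1 q1
  have hi := hm.hol.at z
  have m1 : At ε ((L.Φ q.1).i z) := ⟨hε.1, hz ▸ q3⟩
  have m2 := H956.rep_diff hi he' m1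
  have m3 : ξ q = ε ((L.Φ q.1).i z) := by rw [hz]
  have m4 := H956.nhds_at_map hi.cont he' m1
  obtain ⟨A, a1, a2⟩ := q5 (jacF (L.Φ q.1).i e' ε z) (fun v => by
    have m5 : (fun b => L.g (ε.symm (ε ((L.Φ q.1).i (e'.symm b))))) =ᶠ[𝓝 (e' z)] fun _ => q.1 := by
      filter_upwards [m4] with b hb
      rw [hb.2.2.left_inv]
      exact (hm.mem _).2
    have m6 := (an_g L (hm.mem z).1 m1).differentiableAt
    rw [← he'.left_inv] at m6
    have m7 := fderiv_comp (e' z) m6 m2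
    rw [Function.comp_def, m5.fderiv_eq, he'.left_inv] at m7
    rw [H726.jacF_mulVec m2, m3, ← ContinuousLinearMap.comp_apply, ← m7]
    simp) (fun v v' h => hm.imm z e' ε he' m1 (by
      rwa [H726.jacF_mulVec m2, H726.jacF_mulVec m2] at h))
  refine ⟨A, a1, ?_, fun u hu => ?_⟩
  · have m8 : ∀ M : Mx D, (Bm (ξ q) * A)ᵀ * M * (Bm (ξ q) * A) =
        Aᵀ * ((Bm (ξ q))ᵀ * M * Bm (ξ q)) * A := fun M => by
      simp only [Matrix.transpose_mul, Matrix.mul_assoc]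
    rw [q4 q.1 q1 z hz e' he', a2, m8, Matrix.det_mul, Matrix.det_mul, Matrix.det_transpose]
    ring
  · have n1 : T.Ψ ((L.Φ q.1).i z) = e.symm q.2 := by rw [hz]; exact (T.h1 _ q1 _).2.2
    have n2 : At e (T.Ψ ((L.Φ q.1).i z)) := n1 ▸ At.of_target hx.1 q2
    have n3 := T.Ψs _ (hm.mem z).1
    have n4 : ContDiffAt ℝ 2 η (ξ q) := m3 ▸ (n3.sm ε e m1 n2).of_le two_le_inf
    have n5 : η (ξ q) = e (e.symm q.2) := by rw [m3, hη]; simp only [m1.left_inv, n1]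
    have n6 : ContDiffAt ℝ 2 (fun b => u (e.symm b)) (η (ξ q)) :=
      n5 ▸ hu.c2Fn e _ (At.of_target hx.1 q2)
    have n7 : ContDiffAt ℝ 2 (fun ζ => u (e.symm (η ζ))) (ξ q) := n6.comp _ n4
    have n8 : (fun b => u (T.Ψ ((L.Φ q.1).i (e'.symm b)))) =ᶠ[𝓝 (e' z)]
        fun b => u (e.symm (η (ε ((L.Φ q.1).i (e'.symm b))))) := by
      filter_upwards [m4, H956.nhds_at_map (f := fun z => T.Ψ ((L.Φ q.1).i z))
        (n3.cont.comp hi.cont) he' n2] with b h1 h2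
      simp only [hη, h1.2.2.left_inv, h2.2.2.left_inv]
    have n9 := H956.cHess_compR (f := fun ζ => u (e.symm (η ζ)))
      (τ := fun b => ε ((L.Φ q.1).i (e'.symm b))) (z := e' z)
      (by rw [he'.left_inv, ← m3]; exact n7) (H956.rep_hol hi he' m1)
    have n10 : fderiv ℝ (fderiv ℝ fun ζ => u (e.symm (η ζ))) (ξ q) = (JT (fderiv ℝ η (ξ q))
        (fderiv ℝ (fderiv ℝ η) (ξ q)) (0, j2 e u (e.symm q.2))).2.2 := by
      refine (congrArg (fun j => j.2.2) (jet_comp n6 n4)).trans ?_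
      ext1 v
      ext1 v'
      simp only [JT_snd_snd, j2, n5]
    rw [he'.left_inv, ← m3, ← H956.jacF_eq, cHess_eq_lev (diffble2 n7), n10] at n9
    rw [Tv.w, addH, H956.pullM_eq L.kah.isForm hi he' m1, cHess_congr n8, n9, ← m3, a2]
    simp only [Matrix.transpose_mul, Matrix.map_mul, Matrix.mul_add, Matrix.add_mul,
      Matrix.mul_assoc]

end Vale.Agent.P301Z.Cs
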