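import Vale.Agent.P301Z.Cs.En

/-!
# P301: complex Hessians with parameters; differences of determinants
-/

open scoped Manifold ContDiff ComplexOrder Topology Matrix
open Set Filter Polynomial
open Vale.Agent.P272.K

noncomputable section

namespace Vale.Agent.P301Z.Cs

variable {d : ℕ}

/-! ### differences of determinants -/

theorem quad (n : ℕ) : ∃ α : Fin (n + 1) → ℂ, ∀ p : ℂ[X], (derivative p).natDegree ≤ n →
    p.eval 1 - p.eval 0 = ∑ j, α j * (derivative p).eval ((j : ℕ) : ℂ) := by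
  set v : Fin (n + 1) → ℂ := fun j => ((j : ℕ) : ℂ) with hv
  refine ⟨fun j => ∫ t in (0 : ℝ)..1, (Lagrange.basis Finset.univ v j).eval (t : ℂ),
    fun p hp => ?_⟩
  have hc : ∀ q : ℂ[X], Continuous fun t : ℝ => q.eval (t : ℂ) := fun q =>
    q.continuous.comp Complex.continuous_ofReal
  have h1 := intervalIntegral.integral_eq_sub_of_hasDerivAt (a := 0) (b := 1)
    (f := fun t : ℝ => p.eval (t : ℂ)) (f' := fun t : ℝ => (derivative p).eval (t : ℂ))
    (fun t _ => (p.hasDerivAt (t : ℂ)).comp_ofReal) ((hc _).intervalIntegrable _ _)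
  have hinj : Set.InjOn v (Finset.univ : Finset (Fin (n + 1))) := fun i _ j _ h =>
    Fin.ext (by simpa [hv] using h)
  have hdeg : (derivative p).degree < (Finset.univ : Finset (Fin (n + 1))).card := by
    rw [Finset.card_univ, Fintype.card_fin]
    exact degree_le_natDegree.trans_lt (by exact_mod_cast Nat.lt_succ_of_le hp)
  have h2 := Lagrange.eq_interpolate hinj hdeg
  have h3 : ∀ t : ℝ, (derivative p).eval (t : ℂ) = ∑ j, (Lagrange.basis Finset.univ v j).eval
      (t : ℂ) * (derivative p).eval (v j) := by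
    intro t
    conv_lhs => rw [h2]
    rw [Lagrange.interpolate_apply, eval_finsetSum]
    exact Finset.sum_congr rfl fun j _ => by rw [eval_mul, eval_C, mul_comm]
  simp only [h3] at h1
  rw [intervalIntegral.integral_finsetSum (f := fun j (t : ℝ) =>
    (Lagrange.basis Finset.univ v j).eval (t : ℂ) * (derivative p).eval (v j)) fun j _ =>
    ((hc _).mul continuous_const).intervalIntegrable _ _] at h1
  simp only [intervalIntegral.integral_mul_const] at h1
  simpa using h1.symm

theorem hasDerivAt_det (A B : Matrix (Fin d) (Fin d) ℂ) (s : ℝ) :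
    HasDerivAt (fun t : ℝ => (A + (t : ℂ) • B).det) (B * (A + (s : ℂ) • B).adjugate).trace s := by
  have h0 : ∀ i j, HasDerivAt (fun t : ℝ => (A + (t : ℂ) • B) i j) (B i j) s := by
    intro i j
    have h1 : HasDerivAt (fun t : ℝ => (t : ℂ)) 1 s := Complex.ofRealCLM.hasDerivAt
    simpa using (h1.mul_const (B i j)).const_add (A i j)
  have h1 : HasFDerivAt (fun t : ℝ => (A + (t : ℂ) • B).det) _ s :=
    INT.hasFDerivAt_det fun i j => (h0 i j).hasFDerivAt
  have h2 := h1.hasDerivAt
  have h3 : fderiv ℝ (fun t : ℝ => (A + (t : ℂ) • B).det) s 1 =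
      ∑ r, ((A + (s : ℂ) • B).updateRow r (B r)).det := by
    rw [INT.fderiv_det fun i j => (h0 i j).differentiableAt]
    refine Finset.sum_congr rfl fun r _ => ?_
    congr 2
    ext l
    rw [fderiv_apply_one_eq_deriv, (h0 r l).deriv]
  rwa [← h1.fderiv, h3, sum_det_updateRow] at h2

/-- `det (A + B) - det A` is a trace against an average of adjugates -/
theorem det_sub (d : ℕ) : ∃ α : Fin (d + 1) → ℂ, ∑ j, α j = 1 ∧
    ∀ A B : Matrix (Fin d) (Fin d) ℂ, (A + B).det - A.det =
      (B * ∑ j, α j • (A + ((j : ℕ) : ℂ) • B).adjugate).trace := by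
  obtain ⟨α, hα⟩ := quad d
  refine ⟨α, by simpa using (hα X (by simp)).symm, fun A B => ?_⟩
  set q : ℂ[X] := Matrix.det ((X : ℂ[X]) • B.map C + A.map C) with hq
  have hdeg : (derivative q).natDegree ≤ d := by
    have := natDegree_det_X_add_C_le B A
    rw [Fintype.card_fin] at this
    exact (natDegree_derivative_le q).trans ((Nat.sub_le _ _).trans this)
  have hev : ∀ t : ℂ, q.eval t = (A + t • B).det := by
    intro t
    have h1 : q.eval t = (evalRingHom t) q := rfl
    rw [h1, hq, RingHom.map_det]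
    congr 1
    ext i j
    simp [RingHom.mapMatrix_apply, add_comm]
    ring
  have hd : ∀ s : ℝ, (derivative q).eval (s : ℂ) = (B * (A + (s : ℂ) • B).adjugate).trace := by
    intro s
    refine ((q.hasDerivAt (s : ℂ)).comp_ofReal).unique ?_
    simp only [hev]
    exact hasDerivAt_det A B s
  have h1 := hα q hdeg
  rw [hev, hev, one_smul, zero_smul, add_zero] at h1
  rw [h1, Matrix.mul_sum, Matrix.trace_sum]
  refine Finset.sum_congr rfl fun j _ => ?_
  have h2 := hd ((j : ℕ) : ℝ)
  rw [Complex.ofReal_natCast] at h2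
  rw [h2, Matrix.mul_smul, Matrix.trace_smul, smul_eq_mul]

/-! ### derivatives with parameters -/

section par

variable {Q : Type} [NormedAddCommGroup Q] [NormedSpace ℝ Q] {F G : Q → ℂ} {q : Q}

/-- a first order operator with constant coefficients -/
def Op (c : ℂ) (v v' : Q) (F : Q → ℂ) : Q → ℂ := fun q =>
  (fderiv ℝ F q v + c * fderiv ℝ F q v') / 2

theorem op_congr {c : ℂ} {v v' : Q} (h : F =ᶠ[𝓝 q] G) : Op c v v' F =ᶠ[𝓝 q] Op c v v' G := by
  filter_upwards [h.fderiv (𝕜 := ℝ)] with y hy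
  simp only [Op, hy]

theorem fd_smooth {n k : WithTop ℕ∞} (hF : ContDiffAt ℝ n F q) (h : k + 1 ≤ n) (v : Q) :
    ContDiffAt ℝ k (fun y => fderiv ℝ F y v) q :=
  (hF.fderiv_right h).clm_apply contDiffAt_const

theorem op_smooth {n k : WithTop ℕ∞} (hF : ContDiffAt ℝ n F q) (h : k + 1 ≤ n) (c : ℂ)
    (v v' : Q) : ContDiffAt ℝ k (Op c v v' F) q :=
  ((fd_smooth hF h v).add (contDiffAt_const.mul (fd_smooth hF h v'))).div_const 2

theorem fd_comm (hF : ContDiffAt ℝ 2 F q) (u v : Q) :
    fderiv ℝ (fun y => fderiv ℝ F y v) q u = fderiv ℝ (fun y => fderiv ℝ F y u) q v := by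
  have h1 : DifferentiableAt ℝ (fderiv ℝ F) q :=
    (hF.fderiv_right (m := 1) (by norm_num)).differentiableAt (by simp)
  rw [fderiv_clm_apply h1 (differentiableAt_const _), fderiv_clm_apply h1 (differentiableAt_const _)]
  simpa using hF.isSymmSndFDerivAt (by simp) u v

theorem op_comm (hF : ContDiffAt ℝ 2 F q) (c : ℂ) (v v' u : Q) :
    fderiv ℝ (Op c v v' F) q u = Op c v v' (fun y => fderiv ℝ F y u) q := by
  have h1 := ((fd_smooth (k := 1) hF (by norm_num) v).differentiableAt (by simp)).hasFDerivAt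
  have h2 := ((fd_smooth (k := 1) hF (by norm_num) v').differentiableAt (by simp)).hasFDerivAt
  have h3 := (h1.add (h2.const_mul c)).mul_const (2⁻¹ : ℂ)
  have h4 : Op c v v' F = fun y => (fderiv ℝ F y v + c * fderiv ℝ F y v') * 2⁻¹ := by
    funext y; simp only [Op, div_eq_mul_inv]
  rw [h4]
  erw [h3.fderiv]
  simp only [Op, _root_.smul_apply, _root_.add_apply, smul_eq_mul]
  rw [fd_comm hF u v, fd_comm hF u v']
  ring

end par

variable {P : Type} [NormedAddCommGroup P] [NormedSpace ℝ P] {F : P × Cm d → ℂ} {p : P}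
  {y : Cm d}

theorem slice1 {V : Type} [NormedAddCommGroup V] [NormedSpace ℝ V] {F : P × Cm d → V}
    (hF : DifferentiableAt ℝ F (p, y)) (a : P) :
    fderiv ℝ (fun p' => F (p', y)) p a = fderiv ℝ F (p, y) (a, 0) := by
  have h := HasFDerivAt.comp (f := fun p' => (p', y)) p hF.hasFDerivAt
    (hasFDerivAt_prodMk_left (𝕜 := ℝ) p y)
  exact congrArg (fun L : P →L[ℝ] V => L a) h.fderiv

theorem slice2 (hF : DifferentiableAt ℝ F (p, y)) (b : Cm d) :
    fderiv ℝ (fun z => F (p, z)) y b = fderiv ℝ F (p, y) (0, b) := by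
  have h := hF.hasFDerivAt.comp y (hasFDerivAt_prodMk_right p y)
  exact congrArg (fun L : Cm d →L[ℝ] ℂ => L b) h.fderiv

/-- the mixed second derivative along the fibre -/
def Hs (j k : Fin d) (F : P × Cm d → ℂ) : P × Cm d → ℂ :=
  Op (-Complex.I) (0, Pi.single j 1) (0, Pi.single j Complex.I)
    (Op Complex.I (0, Pi.single k 1) (0, Pi.single k Complex.I) F)

theorem hs_eq (hF : ContDiffAt ℝ 2 F (p, y)) (j k : Fin d) :
    dz j (dzb k fun z => F (p, z)) y = Hs j k F (p, y) := by
  have h1 : (dzb k fun z => F (p, z)) =ᶠ[𝓝 y] fun z =>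
      Op Complex.I (0, Pi.single k 1) (0, Pi.single k Complex.I) F (p, z) := by
    have h2 : ContinuousAt (fun z : Cm d => (p, z)) y := by fun_prop
    filter_upwards [h2.eventually (hF.eventually (by simp))] with z hz
    have h3 := hz.differentiableAt (by simp)
    simp only [dzb, Op, slice2 h3]
  have h4 := (op_smooth (k := 1) hF (by norm_num) Complex.I (0, Pi.single k 1)
    (0, Pi.single k Complex.I)).differentiableAt (by simp)
  rw [INT.dz_congr h1]
  simp only [dz, Hs, slice2 h4]
  rw [Op]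
  ring

theorem hs_smooth (hF : ContDiffAt ℝ ∞ F (p, y)) (j k : Fin d) :
    ContDiffAt ℝ ∞ (Hs j k F) (p, y) :=
  op_smooth (op_smooth hF (le_of_eq rfl) _ _ _) (le_of_eq rfl) _ _ _

theorem hs_comm (hF : ContDiffAt ℝ 3 F (p, y)) (j k : Fin d) (u : P × Cm d) :
    fderiv ℝ (Hs j k F) (p, y) u = Hs j k (fun q => fderiv ℝ F q u) (p, y) := by
  rw [Hs, op_comm (op_smooth hF (by norm_num) _ _ _), Hs]
  refine (op_congr ?_).self_of_nhds
  filter_upwards [hF.eventually (by simp)] with q hq
  exact op_comm (hq.of_le (by norm_num)) _ _ _ _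

variable {U : P × Cm d → ℝ}

theorem cHess_ev (hU : ContDiffAt ℝ ∞ U (p, y)) (j k : Fin d) :
    (fun q : P × Cm d => cHess (fun z => U (q.1, z)) q.2 j k) =ᶠ[𝓝 (p, y)]
      Hs j k fun q => (U q : ℂ) := by
  filter_upwards [(hU.of_le (m := 2) (by norm_cast)).eventually (by simp)] with q hq
  exact hs_eq (F := fun q => (U q : ℂ)) (Complex.ofRealCLM.contDiff.contDiffAt.comp _ hq) j k

/-- the complex Hessian along the fibre is smooth in all variables -/
theorem cHess_joint (hU : ContDiffAt ℝ ∞ U (p, y)) (j k : Fin d) :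
    ContDiffAt ℝ ∞ (fun q : P × Cm d => cHess (fun z => U (q.1, z)) q.2 j k) (p, y) :=
  (hs_smooth (F := fun q => (U q : ℂ)) (Complex.ofRealCLM.contDiff.contDiffAt.comp _ hU) j
    k).congr_of_eventuallyEq (cHess_ev hU j k)

/-- the complex Hessian commutes with derivatives in the parameter -/
theorem cHess_param (hU : ContDiffAt ℝ ∞ U (p, y)) (j k : Fin d) (a : P) :
    fderiv ℝ (fun p' => cHess (fun z => U (p', z)) y j k) p a =
      cHess (fun z => fderiv ℝ U (p, z) (a, 0)) y j k := by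
  have hF : ContDiffAt ℝ ∞ (fun q => (U q : ℂ)) (p, y) :=
    Complex.ofRealCLM.contDiff.contDiffAt.comp _ hU
  have h1 := slice1 ((cHess_joint hU j k).differentiableAt (by simp)) a
  have h2 : (fun q => fderiv ℝ (fun q => (U q : ℂ)) q (a, 0)) =ᶠ[𝓝 (p, y)]
      fun q => ((fderiv ℝ U q (a, 0) : ℝ) : ℂ) := by
    filter_upwards [(hU.of_le (m := 1) (by norm_cast)).eventually (by simp)] with q hq
    have h3 := Complex.ofRealCLM.hasFDerivAt.comp q (hq.differentiableAt (by simp)).hasFDerivAt
    exact congrArg (fun L : P × Cm d →L[ℝ] ℂ => L (a, 0)) h3.fderiv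
  have h4 : ContDiffAt ℝ 2 (fun q => ((fderiv ℝ U q (a, 0) : ℝ) : ℂ)) (p, y) :=
    (fd_smooth hF (by norm_cast) (a, 0)).congr_of_eventuallyEq h2.symm
  rw [h1, (cHess_ev hU j k).fderiv_eq, hs_comm (hF.of_le (by norm_cast)), INT.cHess_apply,
    hs_eq (F := fun q => ((fderiv ℝ U q (a, 0) : ℝ) : ℂ)) h4]
  exact (op_congr (op_congr h2)).self_of_nhds

/-- a real differentiable function with complex linear derivative -/
theorem differentiableAt_of_cr {E : Type} [NormedAddCommGroup E] [NormedSpace ℂ E] {f : E → ℂ}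
    {x : E} (hf : DifferentiableAt ℝ f x)
    (h : ∀ a, fderiv ℝ f x (Complex.I • a) = Complex.I * fderiv ℝ f x a) :
    DifferentiableAt ℂ f x := by
  refine (differentiableAt_iff_restrictScalars ℝ hf).2 ⟨⟨⟨⟨fderiv ℝ f x, map_add _⟩, ?_⟩,
    (fderiv ℝ f x).continuous⟩, rfl⟩
  intro c a
  have h1 : c • a = c.re • a + c.im • (Complex.I • a) := by
    conv_lhs => rw [← Complex.re_add_im c]
    rw [add_smul, mul_smul, Complex.coe_smul, Complex.coe_smul]
  simp only [h1, map_add, map_smul, h, RingHom.id_apply, smul_eq_mul, Complex.real_smul]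
  conv_rhs => rw [← Complex.re_add_im c]
  ring

end Vale.Agent.P301Z.Cs
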