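import Vale.Agent.P301.H450.Stokes
import Vale.Agent.P299.H954.Zero
import Vale.Agent.P272.K.AMP.Calc

/-!
# P301: integration by parts against a closed form of bidegree `(d-1,d-1)`
-/

open scoped Manifold ContDiff ComplexOrder Topology Matrix ComplexConjugate
open MeasureTheory Set Filter
open Vale.Agent.P272.K Vale.Agent.P272.K.INT Vale.Agent.P301.H450

set_option linter.unusedSectionVars false

noncomputable section

namespace Vale.Agent.P301Z.Cs

section loc

variable {d : ℕ} {U : Set (Cm d)} {E : Cm d → Matrix (Fin d) (Fin d) ℂ} {u G : Cm d → ℝ}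

theorem local_div1 (hU : IsOpen U) (hE : ∀ z ∈ U, ∀ i j, ContDiffAt ℝ ∞ (fun y => E y i j) z)
    (hdiv : ∀ z ∈ U, ∀ j, ∑ i, dz i (fun y => E y j i) z = 0)
    (hu : ContDiff ℝ ∞ u) (hc : HasCompactSupport u) (hs : tsupport u ⊆ U)
    (hG : ∀ z ∈ U, ContDiffAt ℝ ∞ G z) :
    ∫ z in U, (((u z : ℂ) • cHess G z + AMP.gm u G z) * E z).trace.re = 0 := by
  set F : Fin d → Fin d → Cm d → ℂ := fun i j z =>
    (u z : ℂ) * (dzb j (fun y => (G y : ℂ)) z * E z j i) with hF
  have hF0 : ∀ i j z, z ∉ tsupport u → F i j z = 0 := by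
    intro i j z hz
    simp only [hF]
    rw [image_eq_zero_of_notMem_tsupport hz, Complex.ofReal_zero, zero_mul]
  have hFs : ∀ i j, HasCompactSupport (F i j) := fun i j =>
    HasCompactSupport.intro hc (fun z hz => hF0 i j z hz)
  have hFt : ∀ i j z, z ∉ tsupport u → F i j =ᶠ[𝓝 z] fun _ => 0 := by
    intro i j z hz
    filter_upwards [(isClosed_tsupport u).isOpen_compl.mem_nhds hz] with y hy
    exact hF0 i j y hy
  have hFc : ∀ i j, ContDiff ℝ 1 (F i j) := by
    intro i j
    rw [contDiff_iff_contDiffAt]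
    intro z
    by_cases hz : z ∈ tsupport u
    · exact ((INT.ofReal_contDiffAt hu.contDiffAt).mul
        ((smooth_dzb (INT.ofReal_contDiffAt (hG z (hs hz)))).mul (hE z (hs hz) j i))).of_le
        (by exact_mod_cast le_top)
    · exact contDiffAt_const.congr_of_eventuallyEq (hFt i j z hz)
  have key : ∀ z ∈ U, (((u z : ℂ) • cHess G z + AMP.gm u G z) * E z).trace =
      ∑ i, ∑ j, dz i (F i j) z := by
    intro z hz
    have h1 : ∀ i j, dz i (F i j) z = ((u z : ℂ) • cHess G z + AMP.gm u G z) i j * E z j i +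
        (u z : ℂ) * dzb j (fun y => (G y : ℂ)) z * dz i (fun y => E y j i) z := by
      intro i j
      have d1 := (smooth_dzb (i := j) (INT.ofReal_contDiffAt (hG z hz))).differentiableAt (by simp)
      have d2 := (hE z hz j i).differentiableAt (by simp)
      have h2 := INT.dz_mul (i := i) (F := fun z => dzb j (fun y => (G y : ℂ)) z)
        (G := fun z => E z j i) (z := z) d1 d2
      have h3 := INT.dz_mul (i := i) (F := fun z => (u z : ℂ))
        (G := fun z => dzb j (fun y => (G y : ℂ)) z * E z j i) (z := z)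
        ((INT.ofReal_contDiffAt hu.contDiffAt).differentiableAt (by simp)) (d1.mul d2)
      rw [show dz i (F i j) z = _ from h3, h2]
      simp only [Matrix.add_apply, Matrix.smul_apply, smul_eq_mul, AMP.gm, Matrix.of_apply,
        INT.cHess_apply]
      ring
    simp only [h1, Finset.sum_add_distrib]
    have h2 : ∑ i, ∑ j, (u z : ℂ) * dzb j (fun y => (G y : ℂ)) z *
        dz i (fun y => E y j i) z = 0 := by
      rw [Finset.sum_comm]
      refine Finset.sum_eq_zero fun j _ => ?_
      rw [← Finset.mul_sum, hdiv z hz j, mul_zero]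
    rw [h2, add_zero]
    rfl
  have hcomp : ∀ z, z ∉ U → ∑ i, ∑ j, dz i (F i j) z = 0 := by
    intro z hz
    refine Finset.sum_eq_zero fun i _ => Finset.sum_eq_zero fun j _ => ?_
    rw [INT.dz_congr (hFt i j z (fun h => hz (hs h)))]; simp
  have hint : ∀ i j, Integrable (fun z => dz i (F i j) z) := by
    intro i j
    have h1 : Continuous (dz i (F i j)) := by
      rw [INT.dz_fun_eq]
      have := (hFc i j).continuous_fderiv (by norm_num)
      exact continuous_const.mul ((this.clm_apply continuous_const).sub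
        (continuous_const.mul (this.clm_apply continuous_const)))
    refine h1.integrable_of_hasCompactSupport (HasCompactSupport.intro hc fun z hz => ?_)
    rw [INT.dz_congr (hFt i j z hz)]; simp
  have hint' : ∀ i, Integrable (fun z => ∑ j, dz i (F i j) z) := fun i =>
    integrable_finsetSum _ fun j _ => hint i j
  have e1 : ∫ z in U, (((u z : ℂ) • cHess G z + AMP.gm u G z) * E z).trace.re =
      ∫ z in U, (∑ i, ∑ j, dz i (F i j) z).re :=
    setIntegral_congr_fun hU.measurableSet fun z hz => by simp only [key z hz]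
  have e2 : ∫ z in U, (∑ i, ∑ j, dz i (F i j) z).re = ∫ z, (∑ i, ∑ j, dz i (F i j) z).re := by
    apply setIntegral_eq_integral_of_forall_compl_eq_zero
    intro z hz; rw [hcomp z hz, Complex.zero_re]
  have e3 : ∫ z, (∑ i, ∑ j, dz i (F i j) z).re = (∫ z, ∑ i, ∑ j, dz i (F i j) z).re :=
    Complex.reCLM.integral_comp_comm (integrable_finsetSum _ fun i _ => hint' i)
  rw [e1, e2, e3, integral_finsetSum _ fun i _ => hint' i]
  simp only [fun i => integral_finsetSum _ fun j (_ : j ∈ Finset.univ) => hint i j]
  simp [fun i j => integral_dz_eq_zero (hFc i j) (hFs i j) i]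

end loc

variable {d : ℕ} {X : Type*} [TopologicalSpace X] [ChartedSpace (Cm d) X]
  {E : Chart d X → Cm d → Matrix (Fin d) (Fin d) ℂ} {f g : X → ℝ}

/-- the form `∂ (f ∂̄ g)` -/
def fdd (f g : X → ℝ) : Chart d X → Cm d → Matrix (Fin d) (Fin d) ℂ := fun e z =>
  (f (e.symm z) : ℂ) • AMP.hess g e z + AMP.dd f g e z

variable [IsManifold 𝓘(ℂ, Cm d) ω X]

theorem isForm_fdd (hf : SmoothFn (n := d) f) (hg : SmoothFn (n := d) g) :
    IsForm (fdd (d := d) f g) := by
  intro e e' x h h'
  simp only [fdd, h.left_inv, h'.left_inv]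
  rw [AMP.isForm_hess hg e e' x h h', AMP.isForm_dd hf hg e e' x h h']
  simp only [Matrix.mul_add, Matrix.add_mul, Matrix.mul_smul, Matrix.smul_mul]

theorem smooth_fdd (hf : SmoothFn (n := d) f) (hg : SmoothFn (n := d) g) (e : Chart d X) (x : X)
    (h : At e x) (i j : Fin d) : ContDiffAt ℝ ∞ (fun z => fdd f g e z i j) (e x) :=
  ((INT.ofReal_contDiffAt (hf e x h)).mul (smooth_cHess (hg e x h) i j)).add
    (AMP.contDiffAt_dd hf hg h i j)

theorem dens_fdd (hE : IsCoForm E) (hf : SmoothFn (n := d) f) (hg : SmoothFn (n := d) g) :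
    IsDensity fun e z => (fdd f g e z * E e z).trace.re :=
  hE.isDensity (isForm_fdd hf hg) (smooth_fdd hf hg)

variable [T2Space X] [CompactSpace X]

theorem intX_fdd_piece (hE : IsCoForm E) (hf : SmoothFn (n := d) f) (hg : SmoothFn (n := d) g)
    {e : Chart d X} (he : e ∈ atlas (Cm d) X) (hs : tsupport f ⊆ e.source) :
    intX (fun e z => (fdd f g e z * E e z).trace.re) = 0 := by
  have hd : ∀ (e' : Chart d X) x, At e' x → x ∉ tsupport f → fdd f g e' (e' x) = 0 := by
    intro e' x hx hxv
    have h1 : ∀ᶠ y in 𝓝 (e' x), f (e'.symm y) = 0 := by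
      have h2 : ∀ᶠ y in 𝓝 (e' x), e'.symm y ∈ (tsupport f)ᶜ := by
        apply (e'.continuousAt_symm (e'.map_source hx.2)).eventually_mem
        rw [e'.left_inv hx.2]
        exact (isClosed_tsupport f).isOpen_compl.mem_nhds hxv
      filter_upwards [h2] with y hy
      exact image_eq_zero_of_notMem_tsupport hy
    have h3 : fderiv ℝ (fun y => f (e'.symm y)) (e' x) = 0 := by
      rw [Filter.EventuallyEq.fderiv_eq (f := fun _ => (0 : ℝ)) h1]; simp
    simp only [fdd]
    rw [h1.self_of_nhds, AMP.dd_eq_gm, AMP.gm_zero_left _ h3]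
    simp
  rw [intX_of_support (dens_fdd hE hf hg) he (isClosed_tsupport f) hs (fun e' x hx hxv => by
      simp only [hd e' x hx hxv, Matrix.zero_mul, Matrix.trace_zero, Complex.zero_re])]
  set u : Cm d → ℝ := e.target.indicator (fun z => f (e.symm z)) with hu
  set K : Set (Cm d) := e '' tsupport f with hK
  have hKc : IsCompact K :=
    (isClosed_tsupport f).isCompact.image_of_continuousOn (e.continuousOn.mono hs)
  have hKt : K ⊆ e.target := by
    rintro _ ⟨x, hx, rfl⟩; exact e.map_source (hs hx)
  have hsupp : Function.support u ⊆ K := by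
    intro z hz
    simp only [hu, Function.mem_support] at hz
    have hzt : z ∈ e.target := by
      by_contra h; exact hz (indicator_of_notMem h _)
    rw [indicator_of_mem hzt] at hz
    exact ⟨e.symm z, subset_tsupport _ hz, e.right_inv hzt⟩
  have hts : tsupport u ⊆ K := closure_minimal hsupp hKc.isClosed
  have hucs : HasCompactSupport u := hKc.of_isClosed_subset (isClosed_tsupport u) hts
  have hue : ∀ z ∈ e.target, u =ᶠ[𝓝 z] fun z => f (e.symm z) := by
    intro z hz
    filter_upwards [e.open_target.mem_nhds hz] with y hy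
    rw [hu, indicator_of_mem hy]
  have hus : ContDiff ℝ ∞ u := by
    rw [contDiff_iff_contDiffAt]
    intro z
    by_cases hz : z ∈ e.target
    · have := hf e (e.symm z) ⟨he, e.map_target hz⟩
      rw [e.right_inv hz] at this
      exact this.congr_of_eventuallyEq (hue z hz)
    · exact contDiffAt_const.congr_of_eventuallyEq
        (notMem_tsupport_iff_eventuallyEq.1 fun h => hz (hKt (hts h)))
  have hsm : ∀ z ∈ e.target, ∀ i j, ContDiffAt ℝ ∞ (fun y => E e y i j) z := by
    intro z hz i j
    have := hE.smooth e (e.symm z) ⟨he, e.map_target hz⟩ i j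
    rwa [e.right_inv hz] at this
  have hdv : ∀ z ∈ e.target, ∀ j, ∑ i, dz i (fun y => E e y j i) z = 0 := by
    intro z hz j
    have := hE.div e (e.symm z) ⟨he, e.map_target hz⟩ j
    rwa [e.right_inv hz] at this
  have hG : ∀ z ∈ e.target, ContDiffAt ℝ ∞ (fun y => g (e.symm y)) z := by
    intro z hz
    have := hg e (e.symm z) ⟨he, e.map_target hz⟩
    rwa [e.right_inv hz] at this
  have := local_div1 e.open_target hsm hdv hus hucs (hts.trans hKt) hG
  rw [← this]
  refine setIntegral_congr_fun e.open_target.measurableSet fun z hz => ?_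
  have h1 : AMP.gm u (fun y => g (e.symm y)) z = AMP.dd f g e z := by
    have h2 : (fun y => ((u y : ℝ) : ℂ)) =ᶠ[𝓝 z] fun y => ((f (e.symm y) : ℝ) : ℂ) := by
      filter_upwards [hue z hz] with y hy
      rw [hy]
    ext i j
    simp only [AMP.gm, AMP.dd, Matrix.of_apply]
    rw [INT.dz_congr h2]
  simp only [h1, (hue z hz).self_of_nhds]
  rfl

/-- **Stokes**: `∫ tr (∂ (f ∂̄ g) · E) = 0` -/
theorem intX_fdd (hE : IsCoForm E) (hf : SmoothFn (n := d) f) (hg : SmoothFn (n := d) g) :
    intX (fun e z => (fdd f g e z * E e z).trace.re) = 0 := by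
  classical
  set P := part d X with hP
  have hp : ∀ i, SmoothFn (n := d) (fun x => P.ρ i x * f x) := fun i =>
    SmoothFn.mul (P.smooth i) hf
  set S : Finset (Fin P.N) → X → ℝ := fun s x => ∑ i ∈ s, P.ρ i x * f x with hS
  have hSs : ∀ s, SmoothFn (n := d) (S s) := fun s => SmoothFn.sum s fun i _ => hp i
  have key : ∀ s : Finset (Fin P.N),
      intX (fun e z => (fdd (S s) g e z * E e z).trace.re) = 0 := by
    intro s
    induction s using Finset.induction_on with
    | empty =>
      rw [← intX_zero (n := d) (X := X)]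
      refine intX_congr fun e x _ => ?_
      have h1 : S ∅ = fun _ => 0 := funext fun y => by simp [hS]
      rw [h1]
      simp [fdd, AMP.dd_const_left]
    | insert a s ha ih =>
      have hstep := intX_fdd_piece hE (hp a) hg (P.mem a)
        (tsupport_mul_subset_left'.trans (P.supp a))
      have := intX_add (dens_fdd hE (hp a) hg) (dens_fdd hE (hSs s) hg)
      rw [hstep, ih, add_zero] at this
      rw [← this]
      refine intX_congr fun e x hx => ?_
      have h3 : S (insert a s) = fun y => P.ρ a y * f y + S s y := by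
        funext y; simp only [hS]; rw [Finset.sum_insert ha]
      rw [h3, ← Complex.add_re, ← Matrix.trace_add, ← Matrix.add_mul]
      simp only [fdd]
      rw [AMP.dd_add_left (hp a) (hSs s) hx]
      congr 3
      push_cast
      rw [add_smul]
      abel
  have h3 : S Finset.univ = f := by
    funext y; simp only [hS]; rw [← Finset.sum_mul, P.sum, one_mul]
  rw [← key Finset.univ, h3]

end Vale.Agent.P301Z.Cs
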